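import Mathlib

namespace Vale.Agent.P151Z

/-- The nearest-neighbour lattice `ℤ^d`: `x ~ y` iff their `ℓ¹` distance is one. -/
def zd (d : ℕ) : SimpleGraph (Fin d → ℤ) where
  Adj x y := ∑ k, |x k - y k| = 1
  symm := ⟨fun x y h => by simpa only [abs_sub_comm] using h⟩
  loopless := ⟨fun x h => by simp at h⟩

/-- The configuration `ω` (the set of open edges) has an infinite open cluster. -/
def HasInfCluster {V : Type} (ω : Set (Sym2 V)) : Prop :=
  ∃ x : V, {y | (SimpleGraph.fromEdgeSet ω).Reachable x y}.Infinite

/-- Probability that Bernoulli(`p`) bond percolation on `G` has an infinite open cluster. -/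
noncomputable def percProb {V : Type} (G : SimpleGraph V) (p : unitInterval) : ENNReal :=
  ProbabilityTheory.setBernoulli G.edgeSet p {ω | HasInfCluster ω}

/-- The critical probability `p_c(G)`. -/
noncomputable def pc {V : Type} (G : SimpleGraph V) : unitInterval :=
  sInf {p | 0 < percProb G p}

end Vale.Agent.P151Z
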