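import Mathlib

/-! Finite product expectation over random subsets of a finite set. -/

namespace Vale.Agent.P151Z

open Finset

variable {E : Type*} [DecidableEq E]

noncomputable def wt (p : ℝ) (S T : Finset E) : ℝ := ∏ e ∈ S, if e ∈ T then p else 1 - p

noncomputable def Ex (p : ℝ) (S : Finset E) (f : Finset E → ℝ) : ℝ :=
  ∑ T ∈ S.powerset, wt p S T * f T

open Classical in
noncomputable def ind (P : Prop) : ℝ := if P then 1 else 0

lemma ind_nonneg (P : Prop) : 0 ≤ ind P := by unfold ind; split_ifs <;> norm_num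
lemma ind_le_one (P : Prop) : ind P ≤ 1 := by unfold ind; split_ifs <;> norm_num
lemma ind_pos {P : Prop} (h : P) : ind P = 1 := if_pos h
lemma ind_neg {P : Prop} (h : ¬P) : ind P = 0 := if_neg h
lemma ind_mono {P Q : Prop} (h : P → Q) : ind P ≤ ind Q := by
  by_cases hP : P
  · rw [ind_pos hP, ind_pos (h hP)]
  · rw [ind_neg hP]; exact ind_nonneg Q
lemma ind_congr {P Q : Prop} (h : P ↔ Q) : ind P = ind Q := by rw [propext h]
lemma ind_and (P Q : Prop) : ind (P ∧ Q) = ind P * ind Q := by
  by_cases hP : P <;> by_cases hQ : Q <;> simp [ind, hP, hQ]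
lemma ind_not (P : Prop) : ind (¬P) = 1 - ind P := by by_cases hP : P <;> simp [ind, hP]
lemma ind_or_le (P Q : Prop) : ind (P ∨ Q) ≤ ind P + ind Q := by
  by_cases hP : P <;> by_cases hQ : Q <;> simp [ind, hP, hQ]

variable {p : ℝ} {S : Finset E}

lemma wt_nonneg (h0 : 0 ≤ p) (h1 : p ≤ 1) (S T : Finset E) : 0 ≤ wt p S T :=
  Finset.prod_nonneg fun e _ => by split_ifs <;> linarith

@[simp] lemma Ex_empty (f : Finset E → ℝ) : Ex p ∅ f = f ∅ := by simp [Ex, wt]

lemma Ex_insert {e : E} (he : e ∉ S) (f : Finset E → ℝ) :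
    Ex p (insert e S) f = (1 - p) * Ex p S f + p * Ex p S fun T => f (insert e T) := by
  simp only [Ex]
  rw [Finset.sum_powerset_insert he, Finset.mul_sum, Finset.mul_sum]
  congr 1 <;> refine Finset.sum_congr rfl fun T hT => ?_
  · have : e ∉ T := fun h => he (Finset.mem_powerset.1 hT h)
    rw [wt, Finset.prod_insert he, if_neg this, mul_assoc]; rfl
  · rw [wt, Finset.prod_insert he, if_pos (Finset.mem_insert_self _ _), mul_assoc, wt]
    congr 2
    refine Finset.prod_congr rfl fun x hx => ?_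
    have : x ≠ e := fun h => he (h ▸ hx)
    simp [this]

lemma Ex_congr {f g : Finset E → ℝ} (h : ∀ T ⊆ S, f T = g T) : Ex p S f = Ex p S g :=
  Finset.sum_congr rfl fun T hT => by rw [h T (Finset.mem_powerset.1 hT)]

lemma Ex_mono (h0 : 0 ≤ p) (h1 : p ≤ 1) {f g : Finset E → ℝ} (h : ∀ T ⊆ S, f T ≤ g T) :
    Ex p S f ≤ Ex p S g :=
  Finset.sum_le_sum fun T hT =>
    mul_le_mul_of_nonneg_left (h T (Finset.mem_powerset.1 hT)) (wt_nonneg h0 h1 S T)

lemma Ex_add (f g : Finset E → ℝ) : Ex p S (fun T => f T + g T) = Ex p S f + Ex p S g := by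
  simp only [Ex, mul_add, Finset.sum_add_distrib]

lemma Ex_sub (f g : Finset E → ℝ) : Ex p S (fun T => f T - g T) = Ex p S f - Ex p S g := by
  simp only [Ex, mul_sub, Finset.sum_sub_distrib]

lemma Ex_mul (c : ℝ) (f : Finset E → ℝ) : Ex p S (fun T => c * f T) = c * Ex p S f := by
  simp only [Ex, Finset.mul_sum]; exact Finset.sum_congr rfl fun _ _ => by ring

lemma Ex_mul' (c : ℝ) (f : Finset E → ℝ) : Ex p S (fun T => f T * c) = Ex p S f * c := by
  simp only [mul_comm _ c, Ex_mul]

lemma Ex_const (c : ℝ) : Ex p S (fun _ => c) = c := by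
  induction S using Finset.induction_on with
  | empty => simp
  | insert e S he ih => rw [Ex_insert he, ih]; ring

lemma Ex_sum {ι : Type*} (s : Finset ι) (f : ι → Finset E → ℝ) :
    Ex p S (fun T => ∑ i ∈ s, f i T) = ∑ i ∈ s, Ex p S (f i) := by
  simp only [Ex, Finset.mul_sum]; exact Finset.sum_comm

lemma Ex_nonneg (h0 : 0 ≤ p) (h1 : p ≤ 1) {f : Finset E → ℝ} (h : ∀ T ⊆ S, 0 ≤ f T) :
    0 ≤ Ex p S f := by
  rw [← Ex_const (p := p) (S := S) 0]; exact Ex_mono h0 h1 h

lemma Ex_le (h0 : 0 ≤ p) (h1 : p ≤ 1) {f : Finset E → ℝ} {c : ℝ} (h : ∀ T ⊆ S, f T ≤ c) :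
    Ex p S f ≤ c := by
  rw [← Ex_const (p := p) (S := S) c]; exact Ex_mono h0 h1 h

lemma Ex_not (P : Finset E → Prop) :
    Ex p S (fun T => ind (¬P T)) = 1 - Ex p S fun T => ind (P T) := by
  simp only [ind_not, Ex_sub, Ex_const]

lemma Ex_filter (R : E → Prop) [DecidablePred R] (f : Finset E → ℝ) :
    Ex p S (fun T => f (T.filter R)) = Ex p (S.filter R) f := by
  induction S using Finset.induction_on generalizing f with
  | empty => simp
  | insert e S he ih =>
    rw [Ex_insert he, Finset.filter_insert]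
    split_ifs with h
    · rw [Ex_insert (fun h' => he (Finset.mem_filter.1 h').1), ← ih, ← ih]
      simp only [Finset.filter_insert, if_pos h]
    · simp only [Finset.filter_insert, if_neg h]
      rw [ih]; ring

lemma Ex_image {E' : Type*} [DecidableEq E'] {φ : E → E'} (hφ : Function.Injective φ) (f : Finset E' → ℝ) :
    Ex p (S.image φ) f = Ex p S fun T => f (T.image φ) := by
  induction S using Finset.induction_on generalizing f with
  | empty => simp
  | insert e S he ih =>
    rw [Finset.image_insert, Ex_insert he, Ex_insert (by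
      simpa [Finset.mem_image, hφ.eq_iff] using he), ih, ih]
    simp only [Finset.image_insert]

open Classical in
noncomputable def res (N : Set E) (T : Finset E) : Finset E := T.filter (· ∈ N)

omit [DecidableEq E] in
@[simp] lemma mem_res {N : Set E} {T : Finset E} {e : E} : e ∈ res N T ↔ e ∈ T ∧ e ∈ N := by
  simp [res]

lemma Ex_res (N : Set E) (f : Finset E → ℝ) :
    Ex p S (fun T => f (res N T)) = Ex p (res N S) f := by
  classical exact Ex_filter _ f

/-- take `T` on `N` and `T'` off `N` -/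
noncomputable def mix (N : Set E) (T T' : Finset E) : Finset E := res N T ∪ res Nᶜ T'

lemma mem_mix {N : Set E} {T T' : Finset E} {e : E} :
    e ∈ mix N T T' ↔ (e ∈ T ∧ e ∈ N) ∨ (e ∈ T' ∧ e ∉ N) := by simp [mix]

lemma mix_subset {N : Set E} {T T' : Finset E} (h : T ⊆ S) (h' : T' ⊆ S) : mix N T T' ⊆ S :=
  fun _ he => (mem_mix.1 he).elim (fun h1 => h h1.1) fun h1 => h' h1.1

/-- resampling outside a stopping set -/
lemma Ex_resample (N : Finset E → Set E)
    (hN : ∀ T T', (∀ e ∈ N T, e ∈ T ↔ e ∈ T') → N T' = N T) (f : Finset E → ℝ) :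
    Ex p S f = Ex p S fun T => Ex p S fun T' => f (mix (N T) T T') := by
  have h1 : Ex p S f = ∑ x ∈ S.powerset ×ˢ S.powerset, wt p S x.1 * wt p S x.2 * f x.1 := by
    rw [Finset.sum_product, Ex]
    refine Finset.sum_congr rfl fun T _ => ?_
    have := Ex_const (p := p) (S := S) (wt p S T * f T)
    rw [← this, Ex]
    exact Finset.sum_congr rfl fun _ _ => by ring
  have h2 : (Ex p S fun T => Ex p S fun T' => f (mix (N T) T T')) =
      ∑ x ∈ S.powerset ×ˢ S.powerset, wt p S x.1 * wt p S x.2 * f (mix (N x.1) x.1 x.2) := by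
    rw [Finset.sum_product, Ex]
    refine Finset.sum_congr rfl fun T _ => ?_
    rw [Ex, Finset.mul_sum]
    exact Finset.sum_congr rfl fun _ _ => by ring
  have hm : ∀ T T', N (mix (N T) T T') = N T := fun T T' => hN T _ fun e he => by
    simp [mem_mix, he]
  let σ : Finset E × Finset E → Finset E × Finset E := fun x =>
    (mix (N x.1) x.1 x.2, mix (N x.1) x.2 x.1)
  have hσ : ∀ x, σ (σ x) = x := by
    intro x
    simp only [σ, hm]
    ext e <;> simp only [mem_mix] <;> tauto
  have hs : ∀ x ∈ S.powerset ×ˢ S.powerset, σ x ∈ S.powerset ×ˢ S.powerset := by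
    intro x hx
    simp only [Finset.mem_product, Finset.mem_powerset] at hx ⊢
    exact ⟨mix_subset hx.1 hx.2, mix_subset hx.2 hx.1⟩
  rw [h1, h2]
  symm
  refine Finset.sum_nbij' σ σ hs hs (fun x _ => hσ x) (fun x _ => hσ x) fun x _ => ?_
  congr 1
  simp only [wt, σ, ← Finset.prod_mul_distrib]
  refine Finset.prod_congr rfl fun e _ => ?_
  by_cases h : e ∈ N x.1 <;> simp [mem_mix, h, mul_comm]

lemma Ex_cond (N : Set E) (f : Finset E → ℝ) :
    Ex p S f = Ex p S fun T => Ex p S fun T' => f (mix N T T') :=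
  Ex_resample (fun _ => N) (fun _ _ _ => rfl) f

lemma Ex_indep (N : Set E) {f g : Finset E → ℝ} (hf : ∀ T T', f (mix N T T') = f T)
    (hg : ∀ T T', g (mix N T T') = g T') :
    Ex p S (fun T => f T * g T) = Ex p S f * Ex p S g := by
  rw [Ex_cond N]
  simp only [hf, hg, Ex_mul, Ex_mul']

lemma Ex_all {R : Finset E} (hR : R ⊆ S) : Ex p S (fun T => ind (R ⊆ T)) = p ^ R.card := by
  have : Ex p S (fun T => ind (R ⊆ T)) = Ex p S fun T => ind (R ⊆ T.filter (· ∈ R)) :=
    Ex_congr fun T _ => ind_congr ⟨fun h e he => Finset.mem_filter.2 ⟨h he, he⟩,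
      fun h => h.trans (Finset.filter_subset _ _)⟩
  rw [this, Ex_filter (· ∈ R) fun T => ind (R ⊆ T), Finset.filter_mem_eq_inter,
    Finset.inter_eq_right.2 hR, Ex, Finset.sum_eq_single R]
  · rw [ind_pos subset_rfl, mul_one, wt, Finset.prod_congr rfl fun e he => if_pos he]; simp
  · intro T hT hne
    rw [ind_neg fun h => hne (Finset.Subset.antisymm (Finset.mem_powerset.1 hT) h), mul_zero]
  · simp

lemma Ex_none {R : Finset E} (hR : R ⊆ S) :
    Ex p S (fun T => ind (Disjoint T R)) = (1 - p) ^ R.card := by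
  have : Ex p S (fun T => ind (Disjoint T R)) = Ex p S fun T => ind (T.filter (· ∈ R) = ∅) :=
    Ex_congr fun T _ => ind_congr (by
      rw [Finset.filter_mem_eq_inter, Finset.disjoint_iff_inter_eq_empty])
  rw [this, Ex_filter (· ∈ R) fun T => ind (T = ∅), Finset.filter_mem_eq_inter,
    Finset.inter_eq_right.2 hR, Ex, Finset.sum_eq_single ∅]
  · simp [ind, wt]
  · intro T _ hne
    rw [ind_neg hne, mul_zero]
  · simp

lemma harris (h0 : 0 ≤ p) (h1 : p ≤ 1) {f g : Finset E → ℝ} (hf : Antitone f) (hg : Antitone g) :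
    Ex p S f * Ex p S g ≤ Ex p S fun T => f T * g T := by
  induction S using Finset.induction_on generalizing f g with
  | empty => simp
  | insert e S he ih =>
    simp only [Ex_insert he]
    have a1 := ih hf hg
    have a2 := ih (f := fun T => f (insert e T)) (g := fun T => g (insert e T))
      (fun _ _ h => hf (Finset.insert_subset_insert e h))
      (fun _ _ h => hg (Finset.insert_subset_insert e h))
    have a3 : Ex p S (fun T => f (insert e T)) ≤ Ex p S f :=
      Ex_mono h0 h1 fun T _ => hf (Finset.subset_insert e T)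
    have a4 : Ex p S (fun T => g (insert e T)) ≤ Ex p S g :=
      Ex_mono h0 h1 fun T _ => hg (Finset.subset_insert e T)
    nlinarith [mul_nonneg (mul_nonneg h0 (sub_nonneg.2 h1))
      (mul_nonneg (sub_nonneg.2 a3) (sub_nonneg.2 a4)), mul_le_mul_of_nonneg_left a1
      (sub_nonneg.2 h1), mul_le_mul_of_nonneg_left a2 h0]

lemma Ex_continuous (S : Finset E) (f : Finset E → ℝ) : Continuous fun p => Ex p S f := by
  unfold Ex wt
  refine continuous_finsetSum _ fun T _ => Continuous.mul (continuous_finsetProd _ fun e _ => ?_)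
    continuous_const
  split_ifs <;> fun_prop

end Vale.Agent.P151Z
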