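import Mathlib
import Vale.Agent.P151Z.Ex

/-! Clusters and their Markov property. -/

namespace Vale.Agent.P151Z

variable {V : Type*}

def conn (ω : Set (Sym2 V)) (x y : V) : Prop :=
  Relation.ReflTransGen (fun a b => s(a, b) ∈ ω) x y

def cl (ω : Set (Sym2 V)) (B : Set V) : Set V := {y | ∃ b ∈ B, conn ω b y}

def tch (X : Set V) : Set (Sym2 V) := {e | ∃ x ∈ X, x ∈ e}

variable {ω ω' : Set (Sym2 V)} {x y z : V} {A B X Y : Set V}

lemma conn.refl : conn ω x x := Relation.ReflTransGen.refl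

lemma conn.trans (h : conn ω x y) (h' : conn ω y z) : conn ω x z :=
  Relation.ReflTransGen.trans h h'

lemma conn.edge (h : s(x, y) ∈ ω) : conn ω x y := Relation.ReflTransGen.single h

lemma conn.symm (h : conn ω x y) : conn ω y x := by
  induction h with
  | refl => exact .refl
  | tail _ h ih => exact (conn.edge (by rwa [Sym2.eq_swap])).trans ih

lemma conn.mono (hω : ω ⊆ ω') (h : conn ω x y) : conn ω' x y := by
  induction h with
  | refl => exact .refl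
  | tail _ h ih => exact ih.trans (.edge (hω h))

lemma cl_mono (hω : ω ⊆ ω') (hB : A ⊆ B) : cl ω A ⊆ cl ω' B :=
  fun _ ⟨b, hb, h⟩ => ⟨b, hB hb, h.mono hω⟩

lemma subset_cl : B ⊆ cl ω B := fun b hb => ⟨b, hb, .refl⟩

lemma mem_cl_single : y ∈ cl ω {x} ↔ conn ω x y := by simp [cl]

lemma cl_insert : cl ω (insert x B) = cl ω {x} ∪ cl ω B := by
  ext y; simp [cl]

lemma cl_conn (h : x ∈ cl ω B) (h' : conn ω x y) : y ∈ cl ω B :=
  let ⟨b, hb, h1⟩ := h; ⟨b, hb, h1.trans h'⟩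

lemma cl_eq_of_conn (h : conn ω x y) : cl ω {x} = cl ω {y} := by
  ext z; simp only [mem_cl_single]; exact ⟨fun h1 => h.symm.trans h1, fun h1 => h.trans h1⟩

lemma mem_cl_iff : x ∈ cl ω B ↔ ∃ b ∈ B, b ∈ cl ω {x} := by
  simp only [mem_cl_single]
  exact ⟨fun ⟨b, hb, h⟩ => ⟨b, hb, h.symm⟩, fun ⟨b, hb, h⟩ => ⟨b, hb, h.symm⟩⟩

lemma tch_mono (h : X ⊆ Y) : tch X ⊆ tch Y := fun _ ⟨x, hx, he⟩ => ⟨x, h hx, he⟩

lemma cl_local (h : ∀ e ∈ tch (cl ω B), e ∈ ω ↔ e ∈ ω') : cl ω' B = cl ω B := by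
  ext y
  constructor
  · rintro ⟨b, hb, hy⟩
    induction hy with
    | refl => exact subset_cl hb
    | tail _ h2 ih => exact cl_conn ih (conn.edge ((h _ ⟨_, ih, Sym2.mem_mk_left _ _⟩).2 h2))
  · rintro ⟨b, hb, hy⟩
    induction hy with
    | refl => exact subset_cl hb
    | tail h1 h2 ih =>
      exact cl_conn ih (conn.edge ((h _ ⟨_, ⟨b, hb, h1⟩, Sym2.mem_mk_left _ _⟩).1 h2))

lemma conn_of_mem {e : Sym2 V} (he : e ∈ ω) (hx : x ∈ e) (hy : y ∈ e) : conn ω x y := by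
  by_cases h : x = y
  · exact h ▸ .refl
  · exact .edge ((Sym2.mem_and_mem_iff h).1 ⟨hx, hy⟩ ▸ he)

variable [DecidableEq V]

def Cl (ω0 : Set (Sym2 V)) (B : Set V) (T : Finset (Sym2 V)) : Set V := cl (ω0 ∪ ↑T) B

noncomputable def del (X : Set V) (T : Finset (Sym2 V)) : Finset (Sym2 V) := res (tch X)ᶜ T

variable {ω0 : Set (Sym2 V)} {T T' S : Finset (Sym2 V)} {p : ℝ}

omit [DecidableEq V] in
lemma Cl_mono (hT : T ⊆ T') (hB : A ⊆ B) : Cl ω0 A T ⊆ Cl ω0 B T' :=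
  cl_mono (Set.union_subset_union_right _ hT) hB

omit [DecidableEq V] in
lemma del_subset : del X T ⊆ T := fun _ he => (mem_res.1 he).1

omit [DecidableEq V] in
lemma del_anti (h : X ⊆ Y) (hT : T ⊆ T') : del Y T ⊆ del X T' := fun _ he =>
  mem_res.2 ⟨hT (mem_res.1 he).1, fun h' => (mem_res.1 he).2 (tch_mono h h')⟩

omit [DecidableEq V] in
lemma del_comm : del X (del Y T) = del Y (del X T) := by
  ext e; simp only [del, mem_res]; tauto

omit [DecidableEq V] in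
lemma Cl_del (h : Disjoint (Cl ω0 A T) B) : Cl ω0 B (del (Cl ω0 A T) T) = Cl ω0 B T := by
  refine cl_local fun e ⟨x, hx, hxe⟩ => ⟨fun he => ?_, fun he => ?_⟩
  · rcases he with he | he
    · exact Or.inl he
    · refine Or.inr (mem_res.2 ⟨he, fun ⟨y, hy, hye⟩ => ?_⟩)
      obtain ⟨b, hb, hbx⟩ := hx
      exact Set.disjoint_left.1 h
        (cl_conn hy ((conn_of_mem (Or.inr he) hye hxe).trans hbx.symm)) hb
  · exact he.elim Or.inl fun he => Or.inr (del_subset he)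

lemma markov (B : Set V) (G : Set V → Finset (Sym2 V) → ℝ) :
    Ex p S (fun T => G (Cl ω0 B T) (del (Cl ω0 B T) T)) =
      Ex p S fun T => Ex p S fun T' => G (Cl ω0 B T) (del (Cl ω0 B T) T') := by
  have h1 : ∀ T T' : Finset (Sym2 V), (∀ e ∈ tch (Cl ω0 B T), e ∈ T ↔ e ∈ T') →
      Cl ω0 B T' = Cl ω0 B T := fun T T' h =>
    cl_local fun e he => by simp [h e he]
  rw [Ex_resample (fun T => tch (Cl ω0 B T)) fun T T' h => by rw [h1 T T' h]]
  refine Ex_congr fun T _ => Ex_congr fun T' _ => ?_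
  rw [h1 T (mix _ T T') fun e he => by simp [mem_mix, he]]
  congr 1
  ext e
  simp only [del, mem_res, mem_mix, Set.mem_compl_iff]
  tauto

end Vale.Agent.P151Z
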