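import Mathlib
import Vale.Agent.P151Z.Conn

/-! The gluing inequality. -/

namespace Vale.Agent.P151Z

variable {V : Type*} [DecidableEq V] {ω0 : Set (Sym2 V)} {S : Finset (Sym2 V)} {p : ℝ}

lemma nonneg_of_mul (h0 : 0 ≤ p) (h1 : p ≤ 1) {P : Finset (Sym2 V) → Prop}
    {f : Finset (Sym2 V) → ℝ}
    (h : 0 ≤ Ex p S (fun T => ind (P T)) * Ex p S fun T => ind (P T) * f T) :
    0 ≤ Ex p S fun T => ind (P T) * f T := by
  rcases (Ex_nonneg (S := S) h0 h1 fun T _ => ind_nonneg (P T)).eq_or_lt with h2 | h2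
  · have h3 := (Finset.sum_eq_zero_iff_of_nonneg fun T _ =>
      mul_nonneg (wt_nonneg h0 h1 S T) (ind_nonneg (P T))).1 h2.symm
    exact Finset.sum_nonneg fun T hT => by rw [← mul_assoc, h3 T hT, zero_mul]
  · exact nonneg_of_mul_nonneg_right h h2

def Addv (φ : Set V → ℝ) : Prop := ∀ X Y, Disjoint X Y → φ (X ∪ Y) = φ X + φ Y

variable (ω0 S p) in
structure Cls (Y : Set V) (F : Finset (Sym2 V) → ℝ) : Prop where
  loc : ∀ T a, a ∉ Cl ω0 Y T → F (del (Cl ω0 {a} T) T) = F T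
  mono : Monotone fun X : Set V => Ex p S fun T => F (del X T)
  nonneg : ∀ X : Set V, 0 ≤ Ex p S fun T => F (del X T)

variable (ω0 S p) in
def KK (φ : Set V → ℝ) (Y : Set V) : Prop :=
  ∀ F, Cls ω0 S p Y F → 0 ≤ Ex p S fun T => F T * φ (Cl ω0 Y T)ᶜ

variable (ω0 S p) in
noncomputable def cov (φ : Set V → ℝ) (y : V) (B : Set V) (g : Set V → ℝ) : ℝ :=
  Ex p S (fun T => ind (y ∉ Cl ω0 B T)) *
      Ex p S (fun T => ind (y ∉ Cl ω0 B T) * (g (Cl ω0 {y} T) * φ (Cl ω0 {y} T))) -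
    Ex p S (fun T => ind (y ∉ Cl ω0 B T) * g (Cl ω0 {y} T)) *
      Ex p S fun T => ind (y ∉ Cl ω0 B T) * φ (Cl ω0 {y} T)

omit [DecidableEq V] in
lemma notMem_Cl {y : V} {B : Set V} {T : Finset (Sym2 V)} :
    y ∉ Cl ω0 B T ↔ Disjoint (Cl ω0 {y} T) B := by
  rw [Cl, mem_cl_iff, Set.disjoint_right]
  simp [Cl]

omit [DecidableEq V] in
lemma notMem_Cl' {y : V} {B : Set V} {T : Finset (Sym2 V)} :
    y ∉ Cl ω0 B T ↔ Disjoint (Cl ω0 B T) {y} := by simp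

omit [DecidableEq V] in
lemma disj_Cl {y : V} {B : Set V} {T : Finset (Sym2 V)} (h : y ∉ Cl ω0 B T) :
    Disjoint (Cl ω0 {y} T) (Cl ω0 B T) :=
  Set.disjoint_left.2 fun _ h1 h2 => h (cl_conn h2 (mem_cl_single.1 h1).symm)

lemma Cls.insert {Y Y' : Set V} {F : Finset (Sym2 V) → ℝ} (H : Cls ω0 S p Y F) (h : Y ⊆ Y') :
    Cls ω0 S p Y' F :=
  ⟨fun T a ha => H.loc T a fun h' => ha (Cl_mono subset_rfl h h'), H.mono, H.nonneg⟩

lemma Cls.psi {Y : Set V} {F : Finset (Sym2 V) → ℝ} (H : Cls ω0 S p Y F) (a : V)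
    (ψ : Set V → ℝ) : Ex p S (fun T => F T * (ind (a ∉ Cl ω0 Y T) * ψ (Cl ω0 {a} T))) =
      Ex p S fun T => ind (a ∉ Cl ω0 Y T) *
        (Ex p S (fun T' => F (del (Cl ω0 {a} T) T')) * ψ (Cl ω0 {a} T)) := by
  have h := markov (ω0 := ω0) (p := p) (S := S) {a}
    fun X T => ind (Disjoint X Y) * (F T * ψ X)
  simp only [Ex_mul, Ex_mul', ← notMem_Cl] at h
  rw [← h]
  refine Ex_congr fun T _ => ?_
  by_cases ha : a ∈ Cl ω0 Y T
  · simp [ind_neg (not_not.2 ha)]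
  · rw [H.loc T a ha]; ring

variable (ω0 S p) in
noncomputable def hh (y : V) (g : Set V → ℝ) (Z : Set V) : ℝ :=
  Ex p S fun T => g (Cl ω0 {y} (del Z T))

variable (ω0 S p) in
noncomputable def tt (y : V) (B : Set V) (g : Set V → ℝ) (X : Set V) : ℝ :=
  Ex p S fun T => hh ω0 S p y g (Cl ω0 B (del X T))

lemma hh_anti (h0 : 0 ≤ p) (h1 : p ≤ 1) (y : V) {g : Set V → ℝ} (hg : Monotone g) :
    Antitone (hh ω0 S p y g) := fun _ _ h =>
  Ex_mono h0 h1 fun _ _ => hg (Cl_mono (del_anti h subset_rfl) subset_rfl)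

lemma tt_mono (h0 : 0 ≤ p) (h1 : p ≤ 1) (y : V) (B : Set V) {g : Set V → ℝ} (hg : Monotone g) :
    Monotone (tt ω0 S p y B g) := fun _ _ h =>
  Ex_mono h0 h1 fun _ _ => hh_anti h0 h1 y hg (Cl_mono (del_anti h subset_rfl) subset_rfl)

lemma tt_osc (h0 : 0 ≤ p) (h1 : p ≤ 1) (y : V) (B : Set V) {g : Set V → ℝ} (hg : Monotone g) :
    tt ω0 S p y B g Set.univ - tt ω0 S p y B g ∅ ≤
      (1 - (1 - p) ^ S.card) * (g Set.univ - g ∅) := by
  rw [tt, tt, ← Ex_sub, ← Ex_none (S := S) subset_rfl, ← Ex_not, ← Ex_mul']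
  refine Ex_mono h0 h1 fun T hT => ?_
  by_cases h : Disjoint T S
  · obtain rfl : T = ∅ := Finset.eq_empty_of_forall_notMem fun e he =>
      Finset.disjoint_left.1 h he (hT he)
    simp [del, res, ind]
  · rw [ind_pos h, one_mul]
    refine sub_le_sub (Ex_le h0 h1 fun _ _ => hg (Set.subset_univ _)) ?_
    rw [← Ex_const (p := p) (S := S) (g ∅)]
    exact Ex_mono h0 h1 fun _ _ => hg (Set.empty_subset _)

lemma mk_B (y : V) (B : Set V) (g ψ : Set V → ℝ) :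
    Ex p S (fun T => ind (y ∉ Cl ω0 B T) * (g (Cl ω0 {y} T) * ψ (Cl ω0 B T))) =
      Ex p S fun T => ind (y ∉ Cl ω0 B T) * (hh ω0 S p y g (Cl ω0 B T) * ψ (Cl ω0 B T)) := by
  have h := markov (ω0 := ω0) (p := p) (S := S) B
    fun Z T => ind (y ∉ Z) * (g (Cl ω0 {y} T) * ψ Z)
  simp only [Ex_mul, Ex_mul'] at h
  refine Eq.trans (Ex_congr fun T _ => ?_) h
  by_cases ha : y ∈ Cl ω0 B T
  · simp [ind_neg (not_not.2 ha)]
  · rw [Cl_del (notMem_Cl'.1 ha)]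

lemma mk_y (y : V) (B : Set V) (g ψ : Set V → ℝ) :
    Ex p S (fun T => ind (y ∉ Cl ω0 B T) * (hh ω0 S p y g (Cl ω0 B T) * ψ (Cl ω0 {y} T))) =
      Ex p S fun T => ind (y ∉ Cl ω0 B T) *
        (tt ω0 S p y B g (Cl ω0 {y} T) * ψ (Cl ω0 {y} T)) := by
  have h := markov (ω0 := ω0) (p := p) (S := S) {y}
    fun X T => ind (Disjoint X B) * (hh ω0 S p y g (Cl ω0 B T) * ψ X)
  simp only [Ex_mul, Ex_mul', ← notMem_Cl] at h
  refine Eq.trans (Ex_congr fun T _ => ?_) h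
  by_cases ha : y ∈ Cl ω0 B T
  · simp [ind_neg (not_not.2 ha)]
  · rw [Cl_del (notMem_Cl.1 ha)]

lemma cls_gibbs (h0 : 0 ≤ p) (h1 : p ≤ 1) (y : V) (B : Set V) {g : Set V → ℝ} (hg : Monotone g) :
    Cls ω0 S p (insert y B) fun T => ind (y ∉ Cl ω0 B T) *
      (hh ω0 S p y g (Cl ω0 B T) - g (Cl ω0 {y} T)) := by
  have key : ∀ X : Set V, (Ex p S fun T => ind (y ∉ Cl ω0 B (del X T)) *
      (hh ω0 S p y g (Cl ω0 B (del X T)) - g (Cl ω0 {y} (del X T)))) =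
      Ex p S fun T => ind (y ∉ Cl ω0 B (del X T)) *
        (g (Cl ω0 {y} (del (Cl ω0 B (del X T)) T)) - g (Cl ω0 {y} (del X T))) := by
    intro X
    simp only [mul_sub, Ex_sub]
    congr 1
    have hN : ∀ T T' : Finset (Sym2 V), (∀ e ∈ tch (Cl ω0 B (del X T)), e ∈ T ↔ e ∈ T') →
        Cl ω0 B (del X T') = Cl ω0 B (del X T) := fun T T' h =>
      cl_local fun e he => by simp [del, h e he]
    symm
    rw [Ex_resample (fun T => tch (Cl ω0 B (del X T))) fun T T' h => by rw [hN T T' h]]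
    refine Ex_congr fun T _ => ?_
    rw [hh, ← Ex_mul]
    refine Ex_congr fun T' _ => ?_
    rw [hN T (mix _ T T') fun e he => by simp [mem_mix, he]]
    congr 3
    ext e
    simp only [del, mem_res, mem_mix, Set.mem_compl_iff]
    tauto
  have pos : ∀ (X : Set V) (T : Finset (Sym2 V)), y ∉ Cl ω0 B (del X T) →
      g (Cl ω0 {y} (del X T)) ≤ g (Cl ω0 {y} (del (Cl ω0 B (del X T)) T)) := by
    intro X T h
    rw [← Cl_del (notMem_Cl'.1 h)]
    exact hg (Cl_mono (del_anti subset_rfl del_subset) subset_rfl)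
  refine ⟨fun T a ha => ?_, fun X Y hXY => ?_, fun X => ?_⟩
  · have hd := notMem_Cl.1 ha
    rw [Cl_del (hd.mono_right (Set.subset_insert _ _)),
      Cl_del (hd.mono_right (Set.singleton_subset_iff.2 (Set.mem_insert _ _)))]
  · simp only [key]
    refine Ex_mono h0 h1 fun T _ => ?_
    have hsub : Cl ω0 B (del Y T) ⊆ Cl ω0 B (del X T) := Cl_mono (del_anti hXY subset_rfl) subset_rfl
    by_cases hy : y ∈ Cl ω0 B (del X T)
    · rw [ind_neg (not_not.2 hy), zero_mul]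
      by_cases hy' : y ∈ Cl ω0 B (del Y T)
      · rw [ind_neg (not_not.2 hy'), zero_mul]
      · exact mul_nonneg (ind_nonneg _) (sub_nonneg.2 (pos Y T hy'))
    · rw [ind_pos hy, ind_pos fun h => hy (hsub h), one_mul, one_mul]
      exact sub_le_sub (hg (Cl_mono (del_anti hsub subset_rfl) subset_rfl))
        (hg (Cl_mono (del_anti hXY subset_rfl) subset_rfl))
  · rw [key]
    refine Ex_nonneg h0 h1 fun T _ => ?_
    by_cases hy : y ∈ Cl ω0 B (del X T)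
    · rw [ind_neg (not_not.2 hy), zero_mul]
    · exact mul_nonneg (ind_nonneg _) (sub_nonneg.2 (pos X T hy))

lemma cov_step (h0 : 0 ≤ p) (h1 : p ≤ 1) {φ : Set V → ℝ} (hφ : Addv φ) {y : V} {B : Set V}
    (hK : KK ω0 S p φ (insert y B)) {g : Set V → ℝ} (hg : Monotone g) :
    cov ω0 S p φ y B (tt ω0 S p y B g) ≤ cov ω0 S p φ y B g := by
  have a1 := mk_B (ω0 := ω0) (S := S) (p := p) y B g fun _ => 1
  have a2 := mk_y (ω0 := ω0) (S := S) (p := p) y B g fun _ => 1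
  simp only [mul_one] at a1 a2
  have a3 := mk_y (ω0 := ω0) (S := S) (p := p) y B g φ
  have a4 := mk_B (ω0 := ω0) (S := S) (p := p) y B g fun Z => φ Set.univ - φ Z
  have a5 := hK _ (cls_gibbs h0 h1 y B hg)
  have a6 : (Ex p S fun T => ind (y ∉ Cl ω0 B T) *
      (hh ω0 S p y g (Cl ω0 B T) - g (Cl ω0 {y} T)) * φ (Cl ω0 (insert y B) T)ᶜ) =
      Ex p S fun T => (ind (y ∉ Cl ω0 B T) * (hh ω0 S p y g (Cl ω0 B T) *
        (φ Set.univ - φ (Cl ω0 B T))) - ind (y ∉ Cl ω0 B T) * (g (Cl ω0 {y} T) *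
        (φ Set.univ - φ (Cl ω0 B T)))) - (ind (y ∉ Cl ω0 B T) * (hh ω0 S p y g (Cl ω0 B T) *
        φ (Cl ω0 {y} T)) - ind (y ∉ Cl ω0 B T) * (g (Cl ω0 {y} T) * φ (Cl ω0 {y} T))) := by
    refine Ex_congr fun T _ => ?_
    by_cases hy : y ∈ Cl ω0 B T
    · simp [ind_neg (not_not.2 hy)]
    · have e1 := hφ _ _ (disjoint_compl_right (a := Cl ω0 (insert y B) T))
      have e2 : Cl ω0 (insert y B) T = Cl ω0 {y} T ∪ Cl ω0 B T := cl_insert
      rw [Set.union_compl_self] at e1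
      have e3 := hφ _ _ (disj_Cl hy)
      rw [← e2] at e3
      rw [e1, e3]; ring
  rw [a6] at a5
  simp only [Ex_sub] at a5
  have u0 := Ex_nonneg (S := S) h0 h1 fun T _ => ind_nonneg (y ∉ Cl ω0 B T)
  unfold cov
  rw [← a2, ← a1, ← a3]
  nlinarith [mul_nonneg u0 a5]

lemma cov_base (h0 : 0 ≤ p) (h1 : p ≤ 1) (φ : Set V → ℝ) (y : V) (B : Set V) {g : Set V → ℝ}
    (hg : Monotone g) : -(2 * Ex p S fun T => |φ (Cl ω0 {y} T)|) * (g Set.univ - g ∅) ≤
      cov ω0 S p φ y B g := by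
  obtain ⟨t, ht⟩ : ∃ t, t = g Set.univ - g ∅ := ⟨_, rfl⟩
  obtain ⟨M, hM⟩ : ∃ M, M = Ex p S fun T => |φ (Cl ω0 {y} T)| := ⟨_, rfl⟩
  have t1 : ∀ X, 0 ≤ g X - g ∅ := fun X => sub_nonneg.2 (hg (Set.empty_subset X))
  have t2 : ∀ X, g X - g ∅ ≤ t := fun X => ht ▸ sub_le_sub_right (hg (Set.subset_univ X)) _
  have t0 : 0 ≤ t := (t1 ∅).trans (t2 ∅)
  have M0 : 0 ≤ M := hM ▸ Ex_nonneg h0 h1 fun _ _ => abs_nonneg _
  have e : cov ω0 S p φ y B g = Ex p S (fun T => ind (y ∉ Cl ω0 B T)) *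
      Ex p S (fun T => ind (y ∉ Cl ω0 B T) * ((g (Cl ω0 {y} T) - g ∅) * φ (Cl ω0 {y} T))) -
    Ex p S (fun T => ind (y ∉ Cl ω0 B T) * (g (Cl ω0 {y} T) - g ∅)) *
      Ex p S fun T => ind (y ∉ Cl ω0 B T) * φ (Cl ω0 {y} T) := by
    simp only [cov, sub_mul, mul_sub, Ex_sub, mul_left_comm _ (g ∅), Ex_mul, Ex_mul']
    ring
  have u0 := Ex_nonneg (S := S) h0 h1 fun T _ => ind_nonneg (y ∉ Cl ω0 B T)
  have u1 := Ex_le (S := S) h0 h1 fun T _ => ind_le_one (y ∉ Cl ω0 B T)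
  have b1 : -(t * M) ≤
      Ex p S (fun T => ind (y ∉ Cl ω0 B T) * ((g (Cl ω0 {y} T) - g ∅) * φ (Cl ω0 {y} T))) := by
    rw [hM, ← neg_mul, ← Ex_mul]
    refine Ex_mono h0 h1 fun T _ => ?_
    have c1 := mul_le_mul (ind_le_one (y ∉ Cl ω0 B T)) (t2 (Cl ω0 {y} T)) (t1 _) zero_le_one
    have c2 := mul_nonneg (ind_nonneg (y ∉ Cl ω0 B T)) (t1 (Cl ω0 {y} T))
    nlinarith [neg_abs_le (φ (Cl ω0 {y} T)), abs_nonneg (φ (Cl ω0 {y} T))]
  have b2 : Ex p S (fun T => ind (y ∉ Cl ω0 B T) * (g (Cl ω0 {y} T) - g ∅)) ≤ t :=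
    Ex_le h0 h1 fun T _ => by
      simpa using mul_le_mul (ind_le_one (y ∉ Cl ω0 B T)) (t2 (Cl ω0 {y} T)) (t1 _) zero_le_one
  have b3 : 0 ≤ Ex p S (fun T => ind (y ∉ Cl ω0 B T) * (g (Cl ω0 {y} T) - g ∅)) :=
    Ex_nonneg h0 h1 fun T _ => mul_nonneg (ind_nonneg _) (t1 _)
  have b4 : (Ex p S fun T => ind (y ∉ Cl ω0 B T) * φ (Cl ω0 {y} T)) ≤ M := by
    rw [hM]
    refine Ex_mono h0 h1 fun T _ => ?_
    nlinarith [le_abs_self (φ (Cl ω0 {y} T)), abs_nonneg (φ (Cl ω0 {y} T)),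
      ind_nonneg (y ∉ Cl ω0 B T), ind_le_one (y ∉ Cl ω0 B T)]
  rw [e, ← ht, ← hM]
  nlinarith [mul_le_mul_of_nonneg_left b1 u0, mul_le_mul_of_nonneg_left b4 b3,
    mul_le_mul_of_nonneg_right b2 M0, mul_le_mul_of_nonneg_right u1 (mul_nonneg t0 M0)]

lemma cov_nonneg (h0 : 0 ≤ p) (h1 : p < 1) {φ : Set V → ℝ} (hφ : Addv φ) {y : V} {B : Set V}
    (hK : KK ω0 S p φ (insert y B)) {g : Set V → ℝ} (hg : Monotone g) :
    0 ≤ cov ω0 S p φ y B g := by
  obtain ⟨M, hM⟩ : ∃ M, M = 2 * Ex p S fun T => |φ (Cl ω0 {y} T)| := ⟨_, rfl⟩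
  have M0 : 0 ≤ M := hM ▸ mul_nonneg zero_le_two (Ex_nonneg h0 h1.le fun _ _ => abs_nonneg _)
  obtain ⟨r, hr⟩ : ∃ r, r = 1 - (1 - p) ^ S.card := ⟨_, rfl⟩
  have r0 : 0 ≤ r := hr ▸ sub_nonneg.2 (pow_le_one₀ (by linarith) (by linarith))
  have r1 : r < 1 := by rw [hr]; linarith [pow_pos (sub_pos.2 h1) S.card]
  have key : ∀ k : ℕ, ∀ g : Set V → ℝ, Monotone g →
      -(M * (g Set.univ - g ∅)) * r ^ k ≤ cov ω0 S p φ y B g := by
    intro k
    induction k with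
    | zero => intro g hg; simpa [hM] using cov_base h0 h1.le φ y B hg
    | succ k ih =>
      intro g hg
      refine le_trans ?_ ((ih _ (tt_mono h0 h1.le y B hg)).trans (cov_step h0 h1.le hφ hK hg))
      have := tt_osc (ω0 := ω0) (S := S) h0 h1.le y B hg
      rw [← hr] at this
      rw [pow_succ]
      nlinarith [mul_le_mul_of_nonneg_left this (mul_nonneg M0 (pow_nonneg r0 k))]
  have lim := (tendsto_pow_atTop_nhds_zero_of_lt_one r0 r1).const_mul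
    (-(M * (g Set.univ - g ∅)))
  rw [mul_zero] at lim
  exact le_of_tendsto' lim fun k => key k g hg

omit [DecidableEq V] in
lemma split_compl {φ : Set V → ℝ} (hφ : Addv φ) (a : V) (Y : Set V) (T : Finset (Sym2 V)) :
    φ (Cl ω0 Y T)ᶜ = φ (Cl ω0 (insert a Y) T)ᶜ + ind (a ∉ Cl ω0 Y T) * φ (Cl ω0 {a} T) := by
  have e2 : Cl ω0 (insert a Y) T = Cl ω0 {a} T ∪ Cl ω0 Y T := cl_insert
  by_cases ha : a ∈ Cl ω0 Y T
  · rw [ind_neg (not_not.2 ha), zero_mul, add_zero, e2, Set.union_eq_right.2]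
    exact fun x hx => cl_conn ha (mem_cl_single.1 hx)
  · rw [ind_pos ha, one_mul, ← hφ _ _ (by
      rw [e2]; exact Set.disjoint_left.2 fun x h1 h2 => h1 (Or.inl h2))]
    congr 1
    ext x
    simp only [e2, Set.mem_compl_iff, Set.mem_union]
    have : x ∈ Cl ω0 {a} T → x ∉ Cl ω0 Y T := fun h => Set.disjoint_left.1 (disj_Cl ha) h
    tauto

lemma KK_step (h0 : 0 ≤ p) (h1 : p < 1) {φ : Set V → ℝ} (hφ : Addv φ) {a : V} {Y : Set V}
    (hK : KK ω0 S p φ (insert a Y))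
    (hM : 0 ≤ Ex p S fun T => ind (a ∉ Cl ω0 Y T) * φ (Cl ω0 {a} T)) : KK ω0 S p φ Y := by
  intro F hF
  simp only [split_compl hφ a Y, mul_add, Ex_add]
  refine add_nonneg (hK F (hF.insert (Set.subset_insert _ _))) ?_
  rw [hF.psi]
  refine nonneg_of_mul h0 h1.le ?_
  have := cov_nonneg h0 h1 hφ hK hF.mono
  unfold cov at this
  refine le_trans (mul_nonneg (Ex_nonneg h0 h1.le fun T _ =>
    mul_nonneg (ind_nonneg _) (hF.nonneg _)) hM) (sub_nonneg.1 this)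

variable (ω0 S p) in
def MM (φ : Set V → ℝ) (D : Set V) : Prop :=
  ∀ a ∈ D, ∀ B ⊆ D, 0 ≤ Ex p S fun T => ind (a ∉ Cl ω0 B T) * φ (Cl ω0 {a} T)

lemma KK_all (h0 : 0 ≤ p) (h1 : p < 1) {φ : Set V → ℝ} (hφ : Addv φ) {D : Set V} (hD : D.Finite)
    (hK : KK ω0 S p φ D) (hM : MM ω0 S p φ D) : ∀ Y ⊆ D, KK ω0 S p φ Y := by
  have key : ∀ R : Finset V, ∀ Y ⊆ D, D ⊆ Y ∪ R → KK ω0 S p φ Y := by
    intro R
    induction R using Finset.induction_on with
    | empty => intro Y h1 h2; rwa [Set.Subset.antisymm h1 (by simpa using h2)]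
    | insert a R _ ih =>
      intro Y hY h2
      by_cases ha : a ∈ D
      · refine KK_step h0 h1 hφ (ih _ (Set.insert_subset ha hY) fun x hx => ?_) (hM a ha Y hY)
        have := h2 hx
        simp only [Finset.coe_insert, Set.mem_union, Set.mem_insert_iff] at this ⊢
        tauto
      · refine ih Y hY fun x hx => ?_
        have := h2 hx
        have hne : x ≠ a := fun h => ha (h ▸ hx)
        simp only [Finset.coe_insert, Set.mem_union, Set.mem_insert_iff] at this ⊢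
        tauto
  exact fun Y hY => key hD.toFinset Y hY (by simp)

variable (ω0 S p) in
noncomputable def lam (φ : Set V → ℝ) (a : V) (D : Set V) : ℝ :=
  (Ex p S fun T => ind (a ∉ Cl ω0 D T) * φ (Cl ω0 {a} T)) / Ex p S fun T => ind (a ∉ Cl ω0 D T)

variable (ω0 S p) in
noncomputable def phi (o : V) : List V → Set V → Set V → ℝ
  | [], _, X => ind (o ∈ X)
  | a :: L, D, X => phi o L (insert a D) X - lam ω0 S p (phi o L (insert a D)) a D * ind (a ∈ X)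

omit [DecidableEq V] in
lemma addv_ind (a : V) : Addv fun X : Set V => ind (a ∈ X) := by
  intro X Y h
  beta_reduce
  by_cases hX : a ∈ X
  · rw [ind_pos hX, ind_pos (P := a ∈ X ∪ Y) (Or.inl hX), ind_neg (Set.disjoint_left.1 h hX), add_zero]
  · rw [ind_neg hX, zero_add]; exact ind_congr (by simp [hX])

lemma phi_addv (o : V) (L : List V) (D : Set V) : Addv (phi ω0 S p o L D) := by
  induction L generalizing D with
  | nil => exact addv_ind o
  | cons a L ih =>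
    intro X Y h
    have := addv_ind a X Y h
    simp only [phi] at this ⊢
    rw [ih _ X Y h, this]; ring

lemma lam_mul (h0 : 0 ≤ p) (h1 : p ≤ 1) (φ : Set V → ℝ) (a : V) (D : Set V) :
    lam ω0 S p φ a D * (Ex p S fun T => ind (a ∉ Cl ω0 D T)) =
      Ex p S fun T => ind (a ∉ Cl ω0 D T) * φ (Cl ω0 {a} T) := by
  by_cases h : (Ex p S fun T => ind (a ∉ Cl ω0 D T)) = 0
  · rw [h, mul_zero]
    have a1 := nonneg_of_mul (S := S) h0 h1 (P := fun T => a ∉ Cl ω0 D T)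
      (f := fun T => φ (Cl ω0 {a} T)) (by rw [h, zero_mul])
    have a2 := nonneg_of_mul (S := S) h0 h1 (P := fun T => a ∉ Cl ω0 D T)
      (f := fun T => -1 * φ (Cl ω0 {a} T)) (by rw [h, zero_mul])
    simp only [mul_left_comm _ (-1 : ℝ), Ex_mul] at a2
    linarith
  · exact div_mul_cancel₀ _ h

lemma KM_cons (h0 : 0 ≤ p) (h1 : p < 1) {φ : Set V → ℝ} (hφ : Addv φ) {a : V} {D : Set V}
    (hD : D.Finite) (hK : KK ω0 S p φ (insert a D)) (hM : MM ω0 S p φ (insert a D)) :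
    KK ω0 S p (fun X => φ X - lam ω0 S p φ a D * ind (a ∈ X)) D ∧
      MM ω0 S p (fun X => φ X - lam ω0 S p φ a D * ind (a ∈ X)) D := by
  have hall := KK_all h0 h1 hφ (hD.insert a) hK hM
  have hl := lam_mul (ω0 := ω0) (S := S) h0 h1.le φ a D
  obtain ⟨l, hl'⟩ : ∃ l, l = lam ω0 S p φ a D := ⟨_, rfl⟩
  rw [← hl'] at hl ⊢
  constructor
  · intro F hF
    have e : ∀ T, F T * (φ (Cl ω0 D T)ᶜ - l * ind (a ∈ (Cl ω0 D T)ᶜ)) =
        F T * φ (Cl ω0 (insert a D) T)ᶜ +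
          F T * (ind (a ∉ Cl ω0 D T) * (φ (Cl ω0 {a} T) - l)) := fun T => by
      rw [split_compl hφ a D, Set.mem_compl_iff]; ring
    simp only [e, Ex_add]
    refine add_nonneg (hK F (hF.insert (Set.subset_insert _ _))) ?_
    rw [hF.psi a fun X => φ X - l]
    refine nonneg_of_mul h0 h1.le ?_
    have := cov_nonneg h0 h1 hφ hK hF.mono
    unfold cov at this
    rw [← hl] at this
    simp only [mul_sub, Ex_sub, ← mul_assoc, Ex_mul'] at this ⊢
    linarith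
  · intro b hb B hB
    have e : ∀ T, ind (b ∉ Cl ω0 B T) * (φ (Cl ω0 {b} T) - l * ind (a ∈ Cl ω0 {b} T)) =
        ind (b ∉ Cl ω0 (insert a B) T) * φ (Cl ω0 {b} T) + ind (a ∉ Cl ω0 B T) *
          (ind (b ∈ Cl ω0 {a} T) * (φ (Cl ω0 {a} T) - l)) := by
      intro T
      have e2 : Cl ω0 (insert a B) T = Cl ω0 {a} T ∪ Cl ω0 B T := cl_insert
      by_cases hab : b ∈ Cl ω0 {a} T
      · have hc := mem_cl_single.1 hab
        have e3 : Cl ω0 {b} T = Cl ω0 {a} T := (cl_eq_of_conn hc).symm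
        rw [ind_pos hab, ind_neg (P := b ∉ Cl ω0 (insert a B) T) (not_not.2 (e2 ▸ Or.inl hab)), e3,
          ind_pos (P := a ∈ Cl ω0 {a} T) (subset_cl rfl), ind_congr (P := b ∉ Cl ω0 B T)
          (Q := a ∉ Cl ω0 B T) (not_congr ⟨fun h => cl_conn h hc.symm, fun h => cl_conn h hc⟩)]
        ring
      · rw [ind_neg hab, ind_neg (P := a ∈ Cl ω0 {b} T)
          fun h => hab (mem_cl_single.2 (mem_cl_single.1 h).symm),
          ind_congr (P := b ∉ Cl ω0 (insert a B) T) (Q := b ∉ Cl ω0 B T) (by simp [e2, hab])]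
        ring
    simp only [e, Ex_add]
    refine add_nonneg (hM b (Or.inr hb) _ (Set.insert_subset_insert hB)) ?_
    refine nonneg_of_mul h0 h1.le ?_
    have hKa := hall _ (Set.insert_subset_insert hB : insert a B ⊆ insert a D)
    have c1 := cov_nonneg h0 h1 hφ hKa (g := fun X => ind (b ∈ X))
      fun _ _ h => ind_mono fun h' => h h'
    have c2 := cov_nonneg h0 h1 hφ hKa (g := fun X => -1 * ind (Disjoint X D))
      fun _ _ h => by simpa using ind_mono fun h' => h'.mono_left h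
    have e4 : ∀ T, ind (a ∉ Cl ω0 B T) * ind (a ∉ Cl ω0 D T) = ind (a ∉ Cl ω0 D T) := fun T => by
      rw [← ind_and]
      exact ind_congr ⟨fun h => h.2, fun h => ⟨fun h' => h (Cl_mono subset_rfl hB h'), h⟩⟩
    unfold cov at c1 c2
    simp only [← notMem_Cl, mul_assoc, mul_left_comm _ (-1 : ℝ), Ex_mul] at c2
    simp only [← mul_assoc, e4] at c2
    rw [← hl] at c2
    have m0 := hM a (Set.mem_insert _ _) B (hB.trans (Set.subset_insert _ _))
    have c3 : l * (Ex p S fun T => ind (a ∉ Cl ω0 B T)) ≤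
        Ex p S fun T => ind (a ∉ Cl ω0 B T) * φ (Cl ω0 {a} T) := by
      rcases (Ex_nonneg (S := S) h0 h1.le fun T _ => ind_nonneg (a ∉ Cl ω0 D T)).eq_or_lt with
        h | h
      · rw [hl', lam, ← h, div_zero, zero_mul]; exact m0
      · exact le_of_mul_le_mul_left (by linarith) h
    have w0 : 0 ≤ Ex p S fun T => ind (a ∉ Cl ω0 B T) * ind (b ∈ Cl ω0 {a} T) :=
      Ex_nonneg h0 h1.le fun T _ => mul_nonneg (ind_nonneg _) (ind_nonneg _)
    simp only [mul_sub, Ex_sub, ← mul_assoc, Ex_mul'] at c1 ⊢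
    nlinarith [mul_le_mul_of_nonneg_left c3 w0]

lemma KM_phi (h0 : 0 ≤ p) (h1 : p < 1) (o : V) (L : List V) : ∀ D : Set V, D.Finite →
    KK ω0 S p (phi ω0 S p o L D) D ∧ MM ω0 S p (phi ω0 S p o L D) D := by
  induction L with
  | nil =>
    intro D _
    refine ⟨fun F hF => ?_, fun a _ B _ => Ex_nonneg h0 h1.le fun T _ =>
      mul_nonneg (ind_nonneg _) (ind_nonneg _)⟩
    have := hF.psi o fun _ => 1
    simp only [mul_one] at this
    simp only [phi, Set.mem_compl_iff]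
    rw [this]
    exact Ex_nonneg h0 h1.le fun T _ => mul_nonneg (ind_nonneg _) (hF.nonneg _)
  | cons a L ih =>
    intro D hD
    exact KM_cons h0 h1 (phi_addv o L _) hD (ih _ (hD.insert a)).1 (ih _ (hD.insert a)).2

lemma phi_compl (h0 : 0 ≤ p) (h1 : p < 1) (o : V) (L : List V) : ∀ D : Set V,
    (Ex p S fun T => phi ω0 S p o L D (Cl ω0 D T)ᶜ) =
      Ex p S fun T => ind (o ∉ Cl ω0 (D ∪ {x | x ∈ L}) T) := by
  induction L with
  | nil => intro D; simp [phi]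
  | cons a L ih =>
    intro D
    simp only [phi, split_compl (phi_addv o L _) a D, Ex_sub, Ex_add, Ex_mul, Set.mem_compl_iff, ih,
      lam_mul h0 h1.le]
    rw [show insert a D ∪ {x | x ∈ L} = D ∪ {x | x ∈ a :: L} by ext; simp; tauto]
    ring

lemma phi_avg (h0 : 0 ≤ p) (h1 : p < 1) (o : V) (R : Finset (Sym2 V) → Set V) {δ : ℝ}
    (L : List V) (hL : ∀ a ∈ L, (Ex p S fun T => ind (a ∈ R T)) ≤ δ) : ∀ D : Set V, D.Finite →
    (Ex p S fun T => ind (o ∈ R T)) - (Ex p S fun T => phi ω0 S p o L D (R T)) ≤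
      δ * (1 - phi ω0 S p o L D Set.univ) := by
  induction L with
  | nil => intro D _; simp [phi, ind]
  | cons a L ih =>
    intro D hD
    have h2 := ih (fun b hb => hL b (List.mem_cons_of_mem _ hb)) _ (hD.insert a)
    have h3 : 0 ≤ lam ω0 S p (phi ω0 S p o L (insert a D)) a D :=
      div_nonneg ((KM_phi h0 h1 o L _ (hD.insert a)).2 a (Set.mem_insert _ _) D
        (Set.subset_insert _ _)) (Ex_nonneg h0 h1.le fun _ _ => ind_nonneg _)
    simp only [phi, Ex_sub, Ex_mul, ind_pos (Set.mem_univ a)]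
    nlinarith [mul_le_mul_of_nonneg_left (hL a List.mem_cons_self) h3]

/-- gluing inequality -/
theorem glue (h0 : 0 ≤ p) (h1 : p < 1) (o : V) {A D : Set V} (hA : A.Finite) (hD : D.Finite)
    {δ : ℝ} (hδ : 0 ≤ δ) (h : ∀ a ∈ A, (Ex p S fun T => ind (a ∉ Cl ω0 D T)) ≤ δ) :
    (Ex p S fun T => ind (o ∈ Cl ω0 A T ∧ o ∉ Cl ω0 D T)) ≤ δ := by
  let L := hA.toFinset.toList
  have hL : {x | x ∈ L} = A := by ext; simp [L]
  have h2 := phi_avg (ω0 := ω0) h0 h1 o (fun T => (Cl ω0 D T)ᶜ) L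
    (fun a ha => h a (hL ▸ ha)) D hD
  rw [phi_compl h0 h1, hL] at h2
  have h3 := KK_all h0 h1 (phi_addv o L D) hD (KM_phi (ω0 := ω0) (S := S) h0 h1 o L D hD).1
    (KM_phi h0 h1 o L D hD).2 ∅ (Set.empty_subset _) (fun _ => 1)
    ⟨fun _ _ _ => rfl, fun _ _ _ => le_rfl, fun _ => by rw [Ex_const]; norm_num⟩
  simp only [Cl, cl, Set.mem_empty_iff_false, false_and, exists_false, Set.ofPred_false,
    Set.compl_empty, one_mul, Ex_const] at h3
  rw [← Ex_sub] at h2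
  refine le_trans (Ex_mono h0 h1.le fun T _ => ?_) (h2.trans (by nlinarith))
  by_cases hx : o ∈ Cl ω0 A T ∧ o ∉ Cl ω0 D T
  · rw [ind_pos hx, ind_pos (P := o ∈ (Cl ω0 D T)ᶜ) hx.2, ind_neg (not_not.2
      (Cl_mono subset_rfl Set.subset_union_right hx.1))]
    norm_num
  · rw [ind_neg hx]
    exact sub_nonneg.2 (ind_mono fun h h' => h (Cl_mono subset_rfl Set.subset_union_left h'))

end Vale.Agent.P151Z
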