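import Mathlib
import Vale.Agent.P151Z.Glue

/-! One link: from a region reached by the cluster to the next region. -/

namespace Vale.Agent.P151Z

variable {V : Type*}

def ins (U : Set V) : Set (Sym2 V) := {e | ∀ x ∈ e, x ∈ U}

lemma ins_mono {U U' : Set V} (h : U ⊆ U') : ins U ⊆ ins U' := fun _ he x hx => h (he x hx)

lemma mk_mem_ins {U : Set V} {x y : V} : s(x, y) ∈ ins U ↔ x ∈ U ∧ y ∈ U := by simp [ins]

lemma first_entry {ω : Set (Sym2 V)} {o y : V} {U : Set V} (h : conn ω o y) (hy : y ∈ U) :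
    ∃ a ∈ U, conn (ω \ ins U) o a := by
  have key : conn (ω \ ins U) o y ∨ ∃ a ∈ U, conn (ω \ ins U) o a := by
    clear hy
    induction h with
    | refl => exact Or.inl .refl
    | @tail b c _ h2 ih =>
      rcases ih with ih | ih
      · by_cases he : s(b, c) ∈ ins U
        · exact Or.inr ⟨b, (mk_mem_ins.1 he).1, ih⟩
        · exact Or.inl (ih.trans (.edge ⟨h2, he⟩))
      · exact Or.inr ih
  exact key.elim (fun h => ⟨y, hy, h⟩) id

lemma last_edge {ω : Set (Sym2 V)} {o y : V} (h : conn ω o y) (hy : y ≠ o) :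
    ∃ x, s(x, y) ∈ ω := by
  cases h with
  | refl => exact absurd rfl hy
  | tail _ h2 => exact ⟨_, h2⟩

lemma disj_cl_congr {ω ω' : Set (Sym2 V)} {C B : Set V} (h : ∀ e ∉ ins C, e ∈ ω ↔ e ∈ ω') :
    Disjoint C (cl ω B) ↔ Disjoint C (cl ω' B) := by
  have key : ∀ ω ω' : Set (Sym2 V), (∀ e ∉ ins C, e ∈ ω ↔ e ∈ ω') → Disjoint C (cl ω B) →
      Disjoint C (cl ω' B) := fun ω ω' h hd => by
    rwa [cl_local (ω := ω) fun e ⟨x, hx, hxe⟩ => h e fun hi => Set.disjoint_left.1 hd (hi x hxe) hx]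
  exact ⟨key _ _ h, key _ _ fun e he => (h e he).symm⟩

variable [DecidableEq V] {ω0 : Set (Sym2 V)} {S : Finset (Sym2 V)} {p : ℝ}

variable (ω0) in
def RR (o : V) (Q : Set (Sym2 V)) (U : Set V) (T : Finset (Sym2 V)) : Set V :=
  {a | a ∈ U ∧ conn (((ω0 ∪ ↑T) ∩ Q) \ ins U) o a}

lemma RR_mix (o : V) (Q : Set (Sym2 V)) (U : Set V) (T T' : Finset (Sym2 V)) :
    RR ω0 o Q U (mix (ins U)ᶜ T T') = RR ω0 o Q U T := by
  unfold RR
  congr! 4
  ext e
  simp only [Set.mem_sdiff, Set.mem_inter_iff, Set.mem_union, Finset.mem_coe, mem_mix,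
    Set.mem_compl_iff]
  tauto

omit [DecidableEq V] in
lemma RR_sub {o : V} {Q : Set (Sym2 V)} {U Vs : Set V} (ho : o ∉ U) (hQ : Q ⊆ ins Vs)
    (T : Finset (Sym2 V)) : RR ω0 o Q U T ⊆ U ∩ Vs := fun a ha => by
  obtain ⟨x, hx⟩ := last_edge ha.2 (fun h => ho (h ▸ ha.1))
  exact ⟨ha.1, (mk_mem_ins.1 (hQ hx.1.2)).2⟩

lemma shell (h0 : 0 ≤ p) (h1 : p ≤ 1) {o : V} {Q : Set (Sym2 V)} {U U' Vs : Set V} (ho : o ∉ U')
    (hUU : U ⊆ U') (hVs : Vs.Finite) (hQ : Q ⊆ ins Vs)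
    (hlip : ∀ x y, s(x, y) ∈ ω0 ∪ ↑S → y ∈ U → x ∈ U') (hω : Disjoint ω0 (ins U')) {Δ K : ℕ}
    (hdeg : ∀ x, (S.filter (x ∈ ·)).card ≤ Δ) :
    (1 - p) ^ (Δ * K) * (Ex p S fun T => ind ((RR ω0 o Q U' T).Nonempty ∧
      (RR ω0 o Q U' T).ncard ≤ K)) ≤ (Ex p S fun T => ind (RR ω0 o Q U' T).Nonempty) -
      Ex p S fun T => ind (RR ω0 o Q U T).Nonempty := by
  rw [← Ex_sub, Ex_cond (ins U')ᶜ fun T => _ - _, ← Ex_mul]
  refine Ex_mono h0 h1 fun T hT => ?_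
  simp only [RR_mix]
  have mono : ∀ T, (RR ω0 o Q U T).Nonempty → (RR ω0 o Q U' T).Nonempty := fun T ⟨a, ha⟩ => by
    obtain ⟨b, hb, h⟩ := first_entry ha.2 (hUU ha.1)
    exact ⟨b, hb, h.mono fun e he => ⟨he.1.1, he.2⟩⟩
  by_cases hR : (RR ω0 o Q U' T).Nonempty ∧ (RR ω0 o Q U' T).ncard ≤ K
  · have hfin : (RR ω0 o Q U' T).Finite :=
      hVs.subset ((RR_sub ho hQ T).trans Set.inter_subset_right)
    let Z := hfin.toFinset.biUnion fun x => S.filter (x ∈ ·)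
    have hZ : Z ⊆ S := Finset.biUnion_subset.2 fun _ _ => Finset.filter_subset _ _
    have hc : Z.card ≤ Δ * K := by
      refine (Finset.card_biUnion_le_card_mul _ _ Δ fun x _ => hdeg x).trans ?_
      rw [mul_comm, ← Set.ncard_eq_toFinset_card _ hfin]
      exact Nat.mul_le_mul_left _ hR.2
    rw [ind_pos hR, mul_one, ind_pos hR.1]
    refine (pow_le_pow_of_le_one (by linarith) (by linarith) hc).trans ?_
    rw [← Ex_none hZ]
    refine Ex_mono h0 h1 fun T' hT' => ?_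
    rw [← ind_not]
    refine ind_mono fun hd ⟨a, ha, hc⟩ => ?_
    have key : conn (((ω0 ∪ ↑T) ∩ Q) \ ins U') o a := by
      clear ha
      induction hc with
      | refl => exact .refl
      | @tail b c _ h2 ih =>
        by_cases he : s(b, c) ∈ ins U'
        · exfalso
          rcases h2.1.1 with h3 | h3
          · exact Set.disjoint_left.1 hω h3 he
          · have h4 : s(b, c) ∈ T' := by simpa [mem_mix, he] using h3
            exact Finset.disjoint_left.1 hd h4 (Finset.mem_biUnion.2 ⟨b, hfin.mem_toFinset.2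
              ⟨(mk_mem_ins.1 he).1, ih⟩, Finset.mem_filter.2 ⟨hT' h4, Sym2.mem_mk_left _ _⟩⟩)
        · refine ih.trans (.edge ⟨⟨h2.1.1.imp_right fun h3 => ?_, h2.1.2⟩, he⟩)
          simpa [mem_mix, he] using h3
    obtain ⟨x, hx⟩ := last_edge key fun h => ho (h ▸ hUU ha)
    exact hx.2 (mk_mem_ins.2 ⟨hlip x a (hx.1.1.imp_right fun h => hT h) ha, hUU ha⟩)
  · rw [ind_neg hR, mul_zero]
    refine Ex_nonneg h0 h1 fun T' _ => sub_nonneg.2 (ind_mono fun h => ?_)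
    rw [← RR_mix o Q U' T T']; exact mono _ h

lemma none_seeded {s : ℕ} (sd : V → Finset (Sym2 V)) (I : Finset V)
    (h1 : ∀ a ∈ I, sd a ⊆ S ∧ (sd a).card = s)
    (h2 : ∀ a ∈ I, ∀ b ∈ I, a ≠ b → Disjoint (sd a) (sd b)) :
    (Ex p S fun T => ind (∀ a ∈ I, ¬sd a ⊆ T)) = (1 - p ^ s) ^ I.card := by
  induction I using Finset.induction_on with
  | empty => simp [ind, Ex_const]
  | insert a I ha ih =>
    simp only [Finset.forall_mem_insert, ind_and]
    rw [Ex_indep (sd a : Set (Sym2 V)), ih (fun b hb => h1 b (Finset.mem_insert_of_mem hb))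
      fun b hb c hc => h2 b (Finset.mem_insert_of_mem hb) c (Finset.mem_insert_of_mem hc),
      Ex_not, Ex_all (h1 a (Finset.mem_insert_self _ _)).1, (h1 a (Finset.mem_insert_self _ _)).2,
      Finset.card_insert_of_notMem ha, pow_succ']
    · intro T T'
      exact ind_congr (not_congr (forall₂_congr fun e he => by simp [mem_mix, he]))
    · intro T T'
      refine ind_congr (forall₂_congr fun b hb => not_congr (forall₂_congr fun e he => ?_))
      have := Finset.disjoint_right.1 (h2 a (Finset.mem_insert_self _ _) b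
        (Finset.mem_insert_of_mem hb) fun h => ha (h ▸ hb)) he
      simp [mem_mix, this]

lemma seeded_bad (h0 : 0 ≤ p) (h1 : p ≤ 1) {N : Set (Sym2 V)} {a : V} {sd : Finset (Sym2 V)}
    {C B : Set V} {γ : ℝ} (hγ : 0 < γ) (hS : sd ⊆ S) (hN : ↑sd ⊆ N) (hC : ↑sd ⊆ ins C)
    (hc : ∀ y ∈ C, conn sd a y) (hB : (Ex p S fun T => ind (Disjoint C (Cl ω0 B T))) ≤ γ ^ 2) :
    (Ex p S fun T => ind (sd ⊆ T ∧ γ < Ex p S fun T' => ind (a ∉ Cl ω0 B (mix N T T')))) ≤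
      p ^ sd.card * γ := by
  refine le_of_mul_le_mul_left ?_ hγ
  have e1 : (Ex p S fun T => ind (sd ⊆ T) * ind (Disjoint C (Cl ω0 B T))) =
      p ^ sd.card * Ex p S fun T => ind (Disjoint C (Cl ω0 B T)) := by
    rw [Ex_indep (sd : Set (Sym2 V)), Ex_all hS]
    · intro T T'
      exact ind_congr (forall₂_congr fun e he => by simp [mem_mix, he])
    · intro T T'
      refine ind_congr (disj_cl_congr fun e he => ?_)
      have : e ∉ sd := fun h => he (hC h)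
      simp [mem_mix, this]
  have e2 : (Ex p S fun T => ind (sd ⊆ T) * ind (a ∉ Cl ω0 B T)) ≤
      Ex p S fun T => ind (sd ⊆ T) * ind (Disjoint C (Cl ω0 B T)) := by
    refine Ex_mono h0 h1 fun T _ => ?_
    rw [← ind_and, ← ind_and]
    exact ind_mono fun h => ⟨h.1, Set.disjoint_left.2 fun y hy hy' => h.2 (cl_conn hy'
      ((hc y hy).symm.mono fun e he => Or.inr (h.1 he)))⟩
  rw [← Ex_mul]
  refine le_trans (Ex_mono h0 h1 (g := fun T => Ex p S fun T' => ind (sd ⊆ mix N T T') *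
    ind (a ∉ Cl ω0 B (mix N T T'))) fun T _ => ?_) ?_
  · by_cases h : sd ⊆ T ∧ γ < Ex p S fun T' => ind (a ∉ Cl ω0 B (mix N T T'))
    · rw [ind_pos h, mul_one]
      refine h.2.le.trans (le_of_eq (Ex_congr fun T' _ => ?_))
      rw [ind_pos (P := sd ⊆ _) fun e he => mem_mix.2 (Or.inl ⟨h.1 he, hN he⟩), one_mul]
    · rw [ind_neg h, mul_zero]
      exact Ex_nonneg h0 h1 fun _ _ => mul_nonneg (ind_nonneg _) (ind_nonneg _)
  · rw [← Ex_cond N fun T => ind (sd ⊆ T) * ind (a ∉ Cl ω0 B T)]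
    nlinarith [mul_le_mul_of_nonneg_left hB (pow_nonneg h0 sd.card)]

variable (ω0 S p) in
structure Seeds (U B : Set V) (s χ : ℕ) (γ : ℝ) (W : Set V) : Prop where
  ex : ∃ (sd : V → Finset (Sym2 V)) (cb : V → Set V) (col : V → Fin χ),
    (∀ a ∈ W, sd a ⊆ S ∧ (sd a).card = s ∧ ↑(sd a) ⊆ ins (cb a) ∧ cb a ⊆ U ∧
      (∀ y ∈ cb a, conn (sd a) a y) ∧
      (Ex p S fun T => ind (Disjoint (cb a) (Cl ω0 B T))) ≤ γ ^ 2) ∧
    ∀ a ∈ W, ∀ b ∈ W, a ≠ b → col a = col b → Disjoint (sd a) (sd b)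

lemma many_points (h0 : 0 ≤ p) (h1 : p < 1) {o : V} {Q : Set (Sym2 V)} {U Vs B : Set V}
    (ho : o ∉ U) (hVs : Vs.Finite) (hQ : Q ⊆ ins Vs) (hB : B.Finite) {s χ k : ℕ} {γ : ℝ}
    (hγ : 0 < γ) (hsd : Seeds ω0 S p U B s χ γ (U ∩ Vs)) :
    (Ex p S fun T => ind (χ * k < (RR ω0 o Q U T).ncard ∧ o ∉ Cl ω0 B T)) ≤
      (1 - p ^ s) ^ k + k * (p ^ s * γ) + γ := by
  obtain ⟨sd, cb, col, hs, hcol⟩ := hsd.ex
  let A : Finset (Sym2 V) → Set V := fun T => {a | a ∈ U ∩ Vs ∧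
    (Ex p S fun T' => ind (a ∉ Cl ω0 B (mix (ins U) T T'))) ≤ γ}
  have hA : ∀ T T', A (mix (ins U) T T') = A T ∧ A (mix (ins U)ᶜ T' T) = A T := by
    intro T T'
    have e1 : ∀ T'', mix (ins U) (mix (ins U) T T') T'' = mix (ins U) T T'' := fun T'' => by
      ext e; simp only [mem_mix]; tauto
    have e2 : ∀ T'', mix (ins U) (mix (ins U)ᶜ T' T) T'' = mix (ins U) T T'' := fun T'' => by
      ext e; simp only [mem_mix, Set.mem_compl_iff]; tauto
    simp only [A, e1, e2, and_self]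
  refine le_trans (Ex_mono h0 h1.le (g := fun T => ind (χ * k < (RR ω0 o Q U T).ncard ∧
    Disjoint (RR ω0 o Q U T) (A T)) + ind (o ∈ Cl ω0 (A T) T ∧ o ∉ Cl ω0 B T)) fun T _ => ?_) ?_
  · refine le_trans (ind_mono fun h => ?_) (ind_or_le _ _)
    by_cases hd : Disjoint (RR ω0 o Q U T) (A T)
    · exact Or.inl ⟨h.1, hd⟩
    · obtain ⟨a, ha, ha'⟩ := Set.not_disjoint_iff.1 hd
      exact Or.inr ⟨⟨a, ha', ha.2.symm.mono fun e he => he.1.1⟩, h.2⟩
  rw [Ex_add]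
  refine add_le_add ?_ ?_
  · rw [Ex_cond (ins U)ᶜ]
    refine Ex_le h0 h1.le fun T _ => ?_
    simp only [RR_mix, (hA _ _).2]
    by_cases hR : χ * k < (RR ω0 o Q U T).ncard
    · have hsub := RR_sub (ω0 := ω0) ho hQ T
      have hfin : (RR ω0 o Q U T).Finite := hVs.subset (hsub.trans Set.inter_subset_right)
      rw [Set.ncard_eq_toFinset_card _ hfin] at hR
      obtain ⟨c, -, hc⟩ := Finset.exists_lt_card_fiber_of_mul_lt_card_of_maps_to
        (s := hfin.toFinset) (t := Finset.univ) (f := col) (n := k) (fun _ _ => Finset.mem_univ _)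
        (by simpa using hR)
      obtain ⟨I, hI, hIk⟩ := Finset.exists_subset_card_eq hc.le
      have hI1 : ∀ a ∈ I, a ∈ RR ω0 o Q U T ∧ col a = c := fun a ha => by simpa using hI ha
      have n1 := none_seeded (p := p) (S := S) sd I
        (fun a ha => ⟨(hs a (hsub (hI1 a ha).1)).1, (hs a (hsub (hI1 a ha).1)).2.1⟩)
        fun a ha b hb hab => hcol a (hsub (hI1 a ha).1) b (hsub (hI1 b hb).1) hab
          ((hI1 a ha).2.trans (hI1 b hb).2.symm)
      rw [hIk] at n1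
      refine le_trans (Ex_mono h0 h1.le (g := fun T' => ind (∀ a ∈ I, ¬sd a ⊆ T') +
        ∑ a ∈ I, ind (sd a ⊆ T' ∧ γ < Ex p S fun T'' =>
          ind (a ∉ Cl ω0 B (mix (ins U) T' T'')))) fun T' _ => ?_) ?_
      · have s0 : ∀ a ∈ I, 0 ≤ ind (sd a ⊆ T' ∧ γ < Ex p S fun T'' =>
          ind (a ∉ Cl ω0 B (mix (ins U) T' T''))) := fun _ _ => ind_nonneg _
        by_cases hd : Disjoint (RR ω0 o Q U T) (A T')
        · by_cases hn : ∀ a ∈ I, ¬sd a ⊆ T'
          · rw [ind_pos hn]; linarith [ind_le_one (χ * k < (RR ω0 o Q U T).ncard ∧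
              Disjoint (RR ω0 o Q U T) (A T')), Finset.sum_nonneg s0]
          · push Not at hn
            obtain ⟨a, ha, ha'⟩ := hn
            have := Finset.single_le_sum s0 ha
            rw [ind_pos ⟨ha', not_le.1 fun h => Set.disjoint_left.1 hd (hI1 a ha).1
              ⟨hsub (hI1 a ha).1, h⟩⟩] at this
            linarith [ind_le_one (χ * k < (RR ω0 o Q U T).ncard ∧
              Disjoint (RR ω0 o Q U T) (A T')), ind_nonneg (∀ a ∈ I, ¬sd a ⊆ T')]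
        · rw [ind_neg fun h => hd h.2]
          exact add_nonneg (ind_nonneg _) (Finset.sum_nonneg s0)
      · rw [Ex_add, n1, Ex_sum]
        refine add_le_add le_rfl ((Finset.sum_le_card_nsmul _ _ (p ^ s * γ) fun a ha => ?_).trans
          (by rw [hIk, nsmul_eq_mul]))
        obtain ⟨a1, a2, a3, a4, a5, a6⟩ := hs a (hsub (hI1 a ha).1)
        exact a2 ▸ seeded_bad h0 h1.le hγ a1 (a3.trans (ins_mono a4)) a3 a5 a6
    · refine Ex_le h0 h1.le fun T' _ => ?_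
      rw [ind_neg fun h => hR h.1]
      have : 0 ≤ 1 - p ^ s := sub_nonneg.2 (pow_le_one₀ h0 h1.le)
      positivity
  · rw [Ex_cond (ins U)]
    refine Ex_le h0 h1.le fun T _ => ?_
    simp only [(hA _ _).1]
    have e : ∀ X T', Cl ω0 X (mix (ins U) T T') =
        Cl (ω0 ∪ ↑(res (ins U) T)) X (res (ins U)ᶜ T') := fun X T' => by
      simp only [Cl, mix, Finset.coe_union, Set.union_assoc]
    simp only [e]
    rw [Ex_res (ins U)ᶜ fun T' => ind (o ∈ Cl (ω0 ∪ ↑(res (ins U) T)) (A T) T' ∧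
      o ∉ Cl (ω0 ∪ ↑(res (ins U) T)) B T')]
    refine glue h0 h1 o (hVs.subset fun a ha => ha.1.2) hB hγ.le fun a ha => ?_
    rw [← Ex_res]
    simpa only [e] using ha.2

theorem link (h0 : 0 ≤ p) (h1 : p < 1) {o : V} {Q : Set (Sym2 V)} {U : ℕ → Set V} {M Vs B : Set V}
    {L Δ s χ k : ℕ} {γ : ℝ} (hL : 0 < L) (hU : Monotone U) (hM : M ⊆ U 0) (ho : o ∉ U L)
    (hVs : Vs.Finite) (hQ : Q ⊆ ins Vs) (hB : B.Finite) (hγ : 0 < γ)
    (hlip : ∀ j x y, s(x, y) ∈ ω0 ∪ ↑S → y ∈ U j → x ∈ U (j + 1)) (hω : Disjoint ω0 (ins (U L)))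
    (hdeg : ∀ x, (S.filter (x ∈ ·)).card ≤ Δ)
    (hsd : ∀ j ≤ L, Seeds ω0 S p (U j) B s χ γ (U j ∩ Vs)) :
    (Ex p S fun T => ind (o ∈ cl ((ω0 ∪ ↑T) ∩ Q) M ∧ o ∉ Cl ω0 B T)) ≤
      1 / ((1 - p) ^ (Δ * (χ * k)) * L) + ((1 - p ^ s) ^ k + k * (p ^ s * γ) + γ) := by
  have hq : 0 < (1 - p) ^ (Δ * (χ * k)) := pow_pos (sub_pos.2 h1) _
  have hL' : (0 : ℝ) < L := by exact_mod_cast hL
  obtain ⟨j, hj, hj'⟩ : ∃ j < L, (Ex p S fun T => ind ((RR ω0 o Q (U (j + 1)) T).Nonempty ∧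
      (RR ω0 o Q (U (j + 1)) T).ncard ≤ χ * k)) ≤ 1 / ((1 - p) ^ (Δ * (χ * k)) * L) := by
    by_contra hcon
    push Not at hcon
    have a1 := Finset.sum_range_sub (fun j => Ex p S fun T => ind (RR ω0 o Q (U j) T).Nonempty) L
    have a2 : ∑ _j ∈ Finset.range L, (1 : ℝ) / L < ∑ j ∈ Finset.range L,
        ((Ex p S fun T => ind (RR ω0 o Q (U (j + 1)) T).Nonempty) -
          Ex p S fun T => ind (RR ω0 o Q (U j) T).Nonempty) := by
      refine Finset.sum_lt_sum_of_nonempty (by simp; omega) fun j hj => ?_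
      have hj := Finset.mem_range.1 hj
      refine lt_of_lt_of_le ?_ (shell (K := χ * k) h0 h1.le (fun h => ho (hU (by omega) h))
        (hU (Nat.le_succ j)) hVs hQ (hlip j) (hω.mono_right (ins_mono (hU (by omega)))) hdeg)
      refine lt_of_eq_of_lt ?_ (mul_lt_mul_of_pos_left (hcon j hj) hq)
      field_simp
    rw [a1, Finset.sum_const, Finset.card_range, nsmul_eq_mul, mul_one_div_cancel hL'.ne'] at a2
    linarith [Ex_le (S := S) h0 h1.le fun T _ => ind_le_one (RR ω0 o Q (U L) T).Nonempty,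
      Ex_nonneg (S := S) h0 h1.le fun T _ => ind_nonneg (RR ω0 o Q (U 0) T).Nonempty]
  refine le_trans ?_ (add_le_add hj' (many_points h0 h1 (fun h => ho (hU (by omega) h)) hVs hQ hB
    hγ (hsd (j + 1) hj)))
  rw [← Ex_add]
  refine Ex_mono h0 h1.le fun T _ => le_trans (ind_mono fun h => ?_) (ind_or_le _ _)
  obtain ⟨⟨y, hy, hc⟩, h2⟩ := h
  rcases le_or_gt (RR ω0 o Q (U (j + 1)) T).ncard (χ * k) with h3 | h3
  · exact Or.inl ⟨first_entry hc.symm (hU (Nat.zero_le _) (hM hy)), h3⟩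
  · exact Or.inr ⟨h3, h2⟩

end Vale.Agent.P151Z
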