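import Mathlib
import Vale.Agent.P151Z.Defs
import Vale.Agent.P151Z.Link

/-! Boxes in the lattice and the geometric link. -/

namespace Vale.Agent.P151Z

variable {d : ℕ}

abbrev Zd (d : ℕ) := Fin d → ℤ

def box (x : Zd d) (r : ℤ) : Set (Zd d) := {y | ∀ k, |y k - x k| ≤ r}

lemma box_eq (x : Zd d) (r : ℤ) :
    box x r = ↑(Finset.Icc (fun k => x k - r) (fun k => x k + r)) := by
  ext y
  simp only [box, Set.mem_ofPred_eq, Finset.coe_Icc, Set.mem_Icc, Pi.le_def, abs_le, ← forall_and]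
  exact forall_congr' fun k => by omega

lemma box_finite (x : Zd d) (r : ℤ) : (box x r).Finite := box_eq x r ▸ Finset.finite_toSet _

lemma box_mono (x : Zd d) {r r' : ℤ} (h : r ≤ r') : box x r ⊆ box x r' :=
  fun _ hy k => (hy k).trans h

lemma box_tri {x y : Zd d} {r r' : ℤ} (h : y ∈ box x r) : box y r' ⊆ box x (r + r') :=
  fun z hz k => by have := abs_le.1 (h k); have := abs_le.1 (hz k); exact abs_le.2 (by omega)

open Classical in
noncomputable def bedges (x : Zd d) (r : ℤ) : Finset (Sym2 (Zd d)) :=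
  ((box_finite x r).toFinset.sym2).filter (· ∈ (zd d).edgeSet)

lemma mem_bedges {x : Zd d} {r : ℤ} {e : Sym2 (Zd d)} :
    e ∈ bedges x r ↔ e ∈ (zd d).edgeSet ∧ e ∈ ins (box x r) := by
  simp [bedges, Finset.mem_sym2_iff, ins, and_comm]

lemma adj_lip {x y : Zd d} (h : (zd d).Adj x y) (k : Fin d) : |x k - y k| ≤ 1 :=
  h ▸ Finset.single_le_sum (f := fun k => |x k - y k|) (fun _ _ => abs_nonneg _)
    (Finset.mem_univ k)

lemma box_conn {x : Zd d} {r : ℤ} {y : Zd d} (hy : y ∈ box x r) :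
    ∀ (N : ℕ) (a : Zd d), a ∈ box x r → ∑ k, |a k - y k| = N → conn (bedges x r) a y := by
  intro N
  induction N with
  | zero =>
    intro a _ h
    have := (Finset.sum_eq_zero_iff_of_nonneg fun k _ => abs_nonneg (a k - y k)).1 h
    rw [show a = y from funext fun k => by simpa [sub_eq_zero] using this k (Finset.mem_univ k)]
    exact .refl
  | succ N ih =>
    intro a ha h
    obtain ⟨k, hk⟩ : ∃ k, a k ≠ y k := by
      by_contra hc
      push Not at hc
      simp [hc] at h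
      omega
    obtain ⟨v, hv1, hv2, hv3⟩ : ∃ v : ℤ, |a k - v| = 1 ∧ |v - y k| + 1 = |a k - y k| ∧
        |v - x k| ≤ r := by
      have h1 := abs_le.1 (ha k)
      have h2 := abs_le.1 (hy k)
      rcases lt_or_gt_of_ne hk with h3 | h3
      · refine ⟨a k + 1, by simp, ?_, abs_le.2 (by omega)⟩
        rw [abs_of_nonpos (by omega), abs_of_nonpos (by omega)]; ring
      · refine ⟨a k - 1, by simp, ?_, abs_le.2 (by omega)⟩
        rw [abs_of_nonneg (by omega), abs_of_nonneg (by omega)]; ring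
    have hb : Function.update a k v ∈ box x r := fun l => by
      by_cases hl : l = k
      · subst hl; simpa using hv3
      · simpa [hl] using ha l
    have hs : ∀ z : Zd d, ∑ l, |Function.update a k v l - z l| + |a k - z k| =
        ∑ l, |a l - z l| + |v - z k| := fun z => by
      rw [← Finset.add_sum_erase _ _ (Finset.mem_univ k),
        ← Finset.add_sum_erase _ (fun l => |a l - z l|) (Finset.mem_univ k),
        Finset.sum_congr rfl fun l hl => by rw [Function.update_of_ne (Finset.mem_erase.1 hl).1]]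
      simp only [Function.update_self]; ring
    refine (conn.edge (mem_bedges.2 ⟨?_, mk_mem_ins.2 ⟨ha, hb⟩⟩)).trans (ih _ hb ?_)
    · refine (SimpleGraph.mem_edgeSet _).2 (SimpleGraph.Adj.symm ?_)
      have := hs a
      simp only [sub_self, abs_zero, Finset.sum_const_zero, add_zero, zero_add] at this
      show _ = _
      rw [this, abs_sub_comm, hv1]
    · have := hs y
      push_cast at h
      omega

section transport

variable {V : Type*} [DecidableEq V]

omit [DecidableEq V] in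
lemma conn_map (φ : V → V) {ω ω' : Set (Sym2 V)} (h : ∀ e ∈ ω, Sym2.map φ e ∈ ω') {a b : V}
    (hc : conn ω a b) : conn ω' (φ a) (φ b) := by
  induction hc with
  | refl => exact .refl
  | tail _ h2 ih => exact ih.trans (.edge (h _ h2))

omit [DecidableEq V] in
lemma map_symm_map (φ : V ≃ V) (e : Sym2 V) : Sym2.map φ.symm (Sym2.map φ e) = e := by
  simp [Sym2.map_map]

lemma image_eq (φ : V ≃ V) {S S' : Finset (Sym2 V)} (hS : ∀ e, Sym2.map φ e ∈ S' ↔ e ∈ S) :
    S' = S.image (Sym2.map φ) := by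
  ext e
  rw [Finset.mem_image]
  exact ⟨fun h => ⟨Sym2.map φ.symm e, (hS _).1 (by rwa [← map_symm_map φ.symm e] at h),
    map_symm_map φ.symm e⟩, fun ⟨e', h, h'⟩ => h' ▸ (hS _).2 h⟩

lemma transport (p : ℝ) (φ : V ≃ V) {S S' : Finset (Sym2 V)} {C C' P P' : Set V}
    (hS : ∀ e, Sym2.map φ e ∈ S' ↔ e ∈ S) (hC : ∀ y, φ y ∈ C' ↔ y ∈ C)
    (hP : ∀ y, φ y ∈ P' ↔ y ∈ P) :
    (Ex p S' fun T => ind (Disjoint C' (cl T P'))) = Ex p S fun T => ind (Disjoint C (cl T P)) := by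
  rw [image_eq φ hS, Ex_image (Sym2.map.injective φ.injective)]
  refine Ex_congr fun T _ => ind_congr ?_
  simp only [Set.disjoint_left]
  constructor
  · rintro h y hy ⟨b, hb, hc⟩
    exact h ((hC y).2 hy) ⟨φ b, (hP b).2 hb, conn_map φ
      (fun e he => Finset.mem_coe.2 (Finset.mem_image_of_mem _ he)) hc⟩
  · rintro h y hy ⟨b, hb, hc⟩
    refine h ((hC (φ.symm y)).1 (by simpa)) ⟨φ.symm b, (hP _).1 (by simpa), conn_map φ.symm
      (fun e he => ?_) hc⟩
    obtain ⟨e', h1, rfl⟩ := Finset.mem_image.1 he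
    rwa [map_symm_map]

end transport

/-- signed permutation followed by a translation -/
def aut (x ε : Zd d) (hε : ∀ k, ε k * ε k = 1) (π : Equiv.Perm (Fin d)) : Zd d ≃ Zd d where
  toFun y k := x k + ε k * y (π k)
  invFun y k := ε (π.symm k) * (y (π.symm k) - x (π.symm k))
  left_inv y := funext fun k => by simp [← mul_assoc, hε]
  right_inv y := funext fun k => by simp [← mul_assoc, hε]

lemma abs_eps {e : ℤ} (h : e * e = 1) (z : ℤ) : |e * z| = |z| := by
  rw [abs_mul, (Int.isUnit_iff_abs_eq.1 (IsUnit.of_mul_eq_one e h)), one_mul]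

lemma aut_box (x ε : Zd d) (hε : ∀ k, ε k * ε k = 1) (π : Equiv.Perm (Fin d)) (r : ℤ) (y : Zd d) :
    aut x ε hε π y ∈ box x r ↔ y ∈ box 0 r := by
  simp only [box, aut, Equiv.coe_fn_mk, Set.mem_ofPred_eq, add_sub_cancel_left, abs_eps (hε _),
    Pi.zero_apply, sub_zero]
  exact π.forall_congr_right (q := fun k => |y k| ≤ r)

lemma aut_bedges (x ε : Zd d) (hε : ∀ k, ε k * ε k = 1) (π : Equiv.Perm (Fin d)) (r : ℤ)
    (e : Sym2 (Zd d)) : Sym2.map (aut x ε hε π) e ∈ bedges x r ↔ e ∈ bedges 0 r := by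
  induction e using Sym2.ind with
  | _ a b =>
    rw [Sym2.map_mk, mem_bedges, mem_bedges, mk_mem_ins, mk_mem_ins, aut_box, aut_box]
    refine and_congr_left fun _ => ?_
    show ∑ k, |_| = 1 ↔ ∑ k, |_| = 1
    simp only [aut, Equiv.coe_fn_mk, add_sub_add_left_eq_sub, ← mul_sub, abs_eps (hε _)]
    rw [Equiv.sum_comp π fun k => |a k - b k|]

lemma card_bedges (x : Zd d) (r : ℤ) : (bedges x r).card = (bedges (0 : Zd d) r).card := by
  rw [image_eq _ (aut_bedges x 1 (by simp) 1 r),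
    Finset.card_image_of_injective _ (Sym2.map.injective (Equiv.injective _))]

def piece (x : Zd d) (n : ℤ) (i j : Fin d) (s t : ℤ) : Set (Zd d) :=
  {y | y ∈ box x n ∧ s * (y i - x i) = n ∧ 0 ≤ t * (y j - x j)}

noncomputable def fail (p : ℝ) (m n : ℤ) (x : Zd d) (P : Set (Zd d)) : ℝ :=
  Ex p (bedges x n) fun T => ind (Disjoint (box x m) (cl T P))

lemma fail_piece (p : ℝ) (m n : ℤ) {i0 j0 i j : Fin d} (h0 : i0 ≠ j0) (h : i ≠ j) (x : Zd d)
    {s t : ℤ} (hs : s * s = 1) (ht : t * t = 1) :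
    fail p m n x (piece x n i j s t) = fail p m n 0 (piece 0 n i0 j0 1 1) := by
  let π : Equiv.Perm (Fin d) := (Equiv.swap i i0).trans (Equiv.swap (Equiv.swap i i0 j) j0)
  have h1 : π i = i0 := by
    simp only [π, Equiv.trans_apply, Equiv.swap_apply_left]
    refine Equiv.swap_apply_of_ne_of_ne (fun h' => h ?_) h0
    exact (Equiv.swap i i0).injective (by rwa [Equiv.swap_apply_left])
  have h2 : π j = j0 := by simp [π]
  let ε : Zd d := fun k => if k = i then s else t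
  have hε : ∀ k, ε k * ε k = 1 := fun k => by simp only [ε]; split_ifs <;> assumption
  refine transport p (aut x ε hε π) (aut_bedges x ε hε π n) (aut_box x ε hε π m) fun y => ?_
  simp only [piece, Set.mem_ofPred_eq, aut_box]
  simp [aut, ε, h.symm, h1, h2, ← mul_assoc, hs, ht]

def Crit (d : ℕ) (p : ℝ) (m n : ℤ) (δ : ℝ) : Prop :=
  ∀ (x : Zd d) (i j : Fin d) (s t : ℤ), i ≠ j → s * s = 1 → t * t = 1 →
    fail p m n x (piece x n i j s t) ≤ δ

def rect (i j : Fin d) (c0 c1 w0 w1 : ℤ) : Set (Zd d) := {y | |y i - c0| ≤ w0 ∧ |y j - c1| ≤ w1}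

def Ev (ω0 : Set (Sym2 (Zd d))) (o : Zd d) (H : ℤ) (M : Set (Zd d)) (T : Finset (Sym2 (Zd d))) :
    Prop := o ∈ cl ((ω0 ∪ ↑T) ∩ ins (box 0 H)) M

def Steer (n : ℤ) (U M : Set (Zd d)) : Prop :=
  ∀ x ∈ U, ∃ i j s t, i ≠ j ∧ s * s = 1 ∧ t * t = 1 ∧ piece x n i j s t ⊆ M

def LinkOK (d : ℕ) (p : ℝ) (m n l : ℤ) (ε : ℝ) : Prop :=
  ∀ (ω0 : Set (Sym2 (Zd d))) (S : Finset (Sym2 (Zd d))) (o : Zd d) (i j : Fin d)
    (c0 c1 w0 w1 H : ℤ) (M : Set (Zd d)), i ≠ j → 0 ≤ w0 → 0 ≤ w1 → ω0 ⊆ (zd d).edgeSet →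
    ↑S ⊆ (zd d).edgeSet → o ∉ rect i j c0 c1 (w0 + l) (w1 + l) →
    Disjoint ω0 (ins (rect i j c0 c1 (w0 + l) (w1 + l))) →
    (zd d).edgeSet ∩ ins (rect i j c0 c1 (w0 + l + n) (w1 + l + n) ∩ box 0 (H + (m + n))) ⊆ S →
    Steer n (rect i j c0 c1 (w0 + l) (w1 + l)) M →
    (Ex p S fun T => ind (Ev ω0 o H (rect i j c0 c1 w0 w1) T ∧ ¬Ev ω0 o (H + (m + n)) M T)) ≤ ε

noncomputable def chi (d m : ℕ) : ℕ := Fintype.card (Fin d → ZMod (4 * m + 1))

lemma seeds_ok {p γ : ℝ} (h0 : 0 ≤ p) (h1 : p ≤ 1) {m : ℕ} {n : ℤ} (hmn : (m : ℤ) ≤ n)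
    (hc : Crit d p m n (γ ^ 2)) {ω0 : Set (Sym2 (Zd d))} {S : Finset (Sym2 (Zd d))} {i j : Fin d}
    (hij : i ≠ j) {c0 c1 w0 w1 H : ℤ} (hw0 : 2 * m ≤ w0) (hw1 : 2 * m ≤ w1) {B : Set (Zd d)}
    (hS : ∀ x ∈ rect i j c0 c1 w0 w1 ∩ box 0 (H + m), bedges x n ⊆ S)
    (hB : Steer n (rect i j c0 c1 w0 w1 ∩ box 0 (H + m)) B) :
    Seeds ω0 S p (rect i j c0 c1 w0 w1) B (bedges (0 : Zd d) m).card (chi d m) γ
      (rect i j c0 c1 w0 w1 ∩ box 0 H) := by
  let ce : Zd d → Zd d := fun a k => if k = i then (if c0 ≤ a i then a i - m else a i + m) else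
    if k = j then (if c1 ≤ a j then a j - m else a j + m) else a k
  have c1' : ∀ a, a ∈ box (ce a) m := fun a k => by
    simp only [ce]
    split_ifs <;> subst_vars <;> simp
  have c2 : ∀ a ∈ rect i j c0 c1 w0 w1, box (ce a) m ⊆ rect i j c0 c1 w0 w1 := by
    intro a ha y hy
    have a1 := abs_le.1 ha.1
    have a2 := abs_le.1 ha.2
    have a3 := abs_le.1 (hy i)
    have a4 := abs_le.1 (hy j)
    simp only [ce, if_true, if_neg hij.symm] at a3 a4
    constructor <;> rw [abs_le] <;> split_ifs at a3 a4 <;> omega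
  have c3 : ∀ a, ce a ∈ box (ce a) m := fun a k => by simp
  have c4 : ∀ a, ce a ∈ box a m := fun a k => by rw [abs_sub_comm]; exact c1' a k
  refine ⟨fun a => bedges (ce a) m, fun a => box (ce a) m,
    fun a => Fintype.equivFin _ (fun k => (a k : ZMod (4 * m + 1))), fun a ha => ?_, ?_⟩
  · have hx : ce a ∈ rect i j c0 c1 w0 w1 ∩ box 0 (H + m) :=
      ⟨c2 a ha.1 (c3 a), box_tri ha.2 (c4 a)⟩
    have hsub := hS _ hx
    refine ⟨fun e he => hsub (mem_bedges.2 ⟨(mem_bedges.1 he).1, ins_mono (box_mono _ hmn)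
      (mem_bedges.1 he).2⟩), card_bedges _ _, fun e he => (mem_bedges.1 he).2, c2 a ha.1,
      fun y hy => box_conn hy (∑ k, |a k - y k|).toNat a (c1' a) (by
        rw [Int.toNat_of_nonneg (Finset.sum_nonneg fun _ _ => abs_nonneg _)]), ?_⟩
    obtain ⟨i', j', s, t, h2, h3, h4, h5⟩ := hB _ hx
    refine le_trans ?_ (hc (ce a) i' j' s t h2 h3 h4)
    rw [fail, show bedges (ce a) n = res (bedges (ce a) n : Set _) S from by
      ext e; simpa using fun h => hsub h, ← Ex_res]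
    exact Ex_mono h0 h1 fun T _ => ind_mono fun h => h.mono_right
      (cl_mono (fun e he => Or.inr (mem_res.1 he).1) h5)
  · intro a _ b _ hab hcol
    obtain ⟨k, hk⟩ := Function.ne_iff.1 hab
    have h2 := (ZMod.intCast_eq_intCast_iff_dvd_sub _ _ _).1
      (congrFun ((Fintype.equivFin _).injective hcol) k)
    have h3 := Int.le_of_dvd (abs_pos.2 (sub_ne_zero.2 hk.symm)) ((dvd_abs _ _).2 h2)
    refine Finset.disjoint_left.2 fun e he he' => ?_
    induction e using Sym2.ind with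
    | _ y z =>
      have a1 := abs_le.1 (box_tri (c4 a) (mk_mem_ins.1 (mem_bedges.1 he).2).1 k)
      have a2 := abs_le.1 (box_tri (c4 b) (mk_mem_ins.1 (mem_bedges.1 he').2).1 k)
      have a3 : |b k - a k| ≤ 4 * m := abs_le.2 (by omega)
      push_cast at h3
      omega

theorem linkOK {p γ : ℝ} (h0 : 0 ≤ p) (h1 : p < 1) (hγ : 0 < γ) {m L : ℕ} (k : ℕ) {n : ℤ}
    (hL : 0 < L) (hmn : (m : ℤ) ≤ n) (hc : Crit d p m n (γ ^ 2)) :
    LinkOK d p m n (2 * m + L) (1 / ((1 - p) ^ ((bedges (0 : Zd d) 1).card * (chi d m * k)) * L) +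
      ((1 - p ^ (bedges (0 : Zd d) m).card) ^ k + k * (p ^ (bedges (0 : Zd d) m).card * γ) + γ)) := by
  intro ω0 S o i j c0 c1 w0 w1 H M hij hw0 hw1 hω hS ho hd hin hst
  have hn : 0 ≤ n := le_trans (Int.natCast_nonneg m) hmn
  have key := link (S := res (ins (box 0 (H + (m + n)))) S) (ω0 := ω0 ∩ ins (box 0 (H + (m + n))))
    (U := fun t : ℕ => rect i j c0 c1 (w0 + (2 * m + t)) (w1 + (2 * m + t)))
    (M := rect i j c0 c1 w0 w1) (B := M ∩ box 0 (H + (m + n))) (Q := ins (box 0 H)) (k := k)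
    (Δ := (bedges (0 : Zd d) 1).card) h0 h1 hL
    (fun a b hab y hy => ⟨hy.1.trans (by omega), hy.2.trans (by omega)⟩)
    (fun y hy => ⟨hy.1.trans (by omega), hy.2.trans (by omega)⟩) ho (box_finite 0 H) subset_rfl
    ((box_finite _ _).subset Set.inter_subset_right) hγ (fun t x y he hy => by
      have hadj : (zd d).Adj x y := he.elim (fun h => hω h.1) fun h => hS (mem_res.1 h).1
      have a1 := abs_le.1 (adj_lip hadj i)
      have a2 := abs_le.1 (adj_lip hadj j)
      have a3 := abs_le.1 hy.1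
      have a4 := abs_le.1 hy.2
      constructor <;> rw [abs_le] <;> push_cast <;> omega)
    (hd.mono_left Set.inter_subset_left) (fun x => by
      rw [← card_bedges x]
      refine Finset.card_le_card fun e he => ?_
      obtain ⟨h2, h3⟩ := Finset.mem_filter.1 he
      have h4 := hS (mem_res.1 h2).1
      obtain ⟨y, rfl⟩ := Sym2.mem_iff_exists.1 h3
      exact mem_bedges.2 ⟨h4, mk_mem_ins.2 ⟨fun l => by simp,
        fun l => adj_lip (SimpleGraph.Adj.symm h4) l⟩⟩)
    (fun t ht => seeds_ok h0 h1.le hmn hc hij (by omega) (by omega) (fun x hx e he => by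
      have hb : box x n ⊆ box 0 (H + (m + n)) := (box_tri hx.2).trans (box_mono _ (by omega))
      have h2 := mem_bedges.1 he
      refine mem_res.2 ⟨hin ⟨h2.1, ins_mono (U := box x n)
        (fun y hy => Set.mem_inter ?_ (hb hy)) h2.2⟩, ins_mono hb h2.2⟩
      have a1 := abs_le.1 (hy i)
      have a2 := abs_le.1 (hy j)
      have a3 := abs_le.1 hx.1.1
      have a4 := abs_le.1 hx.1.2
      constructor <;> rw [abs_le] <;> omega) (fun x hx => by
      obtain ⟨i', j', s, t', a1, a2, a3, a4⟩ :=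
        hst x ⟨hx.1.1.trans (by omega), hx.1.2.trans (by omega)⟩
      exact ⟨i', j', s, t', a1, a2, a3, fun y hy =>
        ⟨a4 hy, box_mono _ (by omega) (box_tri hx.2 hy.1)⟩⟩))
  rw [← Ex_res] at key
  refine le_trans (Ex_mono h0 h1.le fun T _ => ind_mono fun h => ⟨cl_mono (fun e he => ?_)
    subset_rfl h.1, fun h' => h.2 (cl_mono (fun e he => ?_) Set.inter_subset_left h')⟩) key
  · have := ins_mono (box_mono 0 (show H ≤ H + (m + n) by omega)) he.2
    exact ⟨he.1.imp (fun h => ⟨h, this⟩) fun h => mem_res.2 ⟨h, this⟩, he.2⟩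
  · exact he.elim (fun h => ⟨Or.inl h.1, h.2⟩) fun h => ⟨Or.inr (mem_res.1 h).1, (mem_res.1 h).2⟩

end Vale.Agent.P151Z
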