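import Mathlib
import Vale.Agent.P151Z.Geo

/-! Chains of links: steering from one coarse box to the next. -/

namespace Vale.Agent.P151Z

variable {d : ℕ}

lemma Ex_trans {E : Type*} [DecidableEq E] {p : ℝ} (h0 : 0 ≤ p) (h1 : p ≤ 1) {S : Finset E}
    {A B C : Finset E → Prop} {a b : ℝ} (hA : (Ex p S fun T => ind (A T ∧ ¬B T)) ≤ a)
    (hB : (Ex p S fun T => ind (B T ∧ ¬C T)) ≤ b) :
    (Ex p S fun T => ind (A T ∧ ¬C T)) ≤ a + b := by
  refine le_trans ?_ (add_le_add hA hB)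
  rw [← Ex_add]
  exact Ex_mono h0 h1 fun T _ => le_trans (ind_mono (by tauto)) (ind_or_le _ _)

def strip (i j : Fin d) (a b c w : ℤ) : Set (Zd d) := {y | a ≤ y i ∧ y i ≤ b ∧ |y j - c| ≤ w}

lemma sg_ex (z : ℤ) : ∃ t : ℤ, t * t = 1 ∧ ((0 ≤ z ∧ t = -1) ∨ (z < 0 ∧ t = 1)) := by
  rcases le_or_gt 0 z with h | h
  · exact ⟨-1, by norm_num, Or.inl ⟨h, rfl⟩⟩
  · exact ⟨1, by norm_num, Or.inr ⟨h, rfl⟩⟩

lemma steer_move {i j : Fin d} (hij : i ≠ j) {n c0 c1 w0 w1 : ℤ} (hw : n ≤ w1) :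
    Steer n (rect i j c0 c1 w0 w1) (rect i j (c0 + n) c1 w0 w1) := by
  intro x hx
  obtain ⟨t, ht, ht'⟩ := sg_ex (x j - c1)
  refine ⟨i, j, 1, t, hij, rfl, ht, fun y hy => ?_⟩
  have a1 := abs_le.1 hx.1
  have a2 := abs_le.1 hx.2
  have a3 := abs_le.1 (hy.1 j)
  obtain ⟨-, a4, a5⟩ := hy
  constructor <;> rw [abs_le] <;> rcases ht' with ⟨h, rfl⟩ | ⟨h, rfl⟩ <;> omega

lemma steer_fix {i j : Fin d} (hij : i ≠ j) {n c0 c1 w0 w1 : ℤ} (hw : n ≤ w1) (hw0 : w0 ≤ 2 * n) :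
    Steer n (rect i j c0 c1 w0 w1) (rect i j c0 c1 n w1) := by
  intro x hx
  obtain ⟨s, hs, hs'⟩ := sg_ex (x i - c0)
  obtain ⟨t, ht, ht'⟩ := sg_ex (x j - c1)
  refine ⟨i, j, s, t, hij, hs, ht, fun y hy => ?_⟩
  have a1 := abs_le.1 hx.1
  have a2 := abs_le.1 hx.2
  have a3 := abs_le.1 (hy.1 j)
  obtain ⟨-, a4, a5⟩ := hy
  constructor <;> rw [abs_le] <;> rcases ht' with ⟨h, rfl⟩ | ⟨h, rfl⟩ <;>
    rcases hs' with ⟨h', rfl⟩ | ⟨h', rfl⟩ <;> omega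

lemma rect_swap (i j : Fin d) (c0 c1 w0 w1 : ℤ) : rect i j c0 c1 w0 w1 = rect j i c1 c0 w1 w0 := by
  ext y; exact and_comm

theorem chain {p ε : ℝ} (h0 : 0 ≤ p) (h1 : p ≤ 1) {m n l : ℤ} (hm : 0 ≤ m) (hl : 0 ≤ l)
    (hL : LinkOK d p m n l ε) {ω0 : Set (Sym2 (Zd d))} {S : Finset (Sym2 (Zd d))} {o : Zd d}
    {i j : Fin d} (hij : i ≠ j) {c0 c1 w0 w1 H : ℤ} {q : ℕ} (hq : 1 ≤ q) (hw0 : 0 ≤ w0)
    (hw1 : n ≤ w1) (hn0 : w0 + (q + 1) * l ≤ 2 * n) (hn1 : w1 + (q + 2) * l ≤ 2 * n)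
    (hω : ω0 ⊆ (zd d).edgeSet) (hS : ↑S ⊆ (zd d).edgeSet)
    (ho : o ∉ strip i j (c0 - w0 - l) (c0 + (q + 2) * n) c1 (2 * n))
    (hd : Disjoint ω0 (ins (strip i j (c0 - w0 - l) (c0 + (q + 2) * n) c1 (2 * n))))
    (hin : (zd d).edgeSet ∩ ins (strip i j (c0 - w0 - l - n) (c0 + (q + 3) * n) c1 (3 * n) ∩
      box 0 (H + (q + 2) * (m + n))) ⊆ S) :
    (Ex p S fun T => ind (Ev ω0 o H (rect i j c0 c1 w0 w1) T ∧ ¬Ev ω0 o (H + (q + 2) * (m + n))
      (rect i j (c0 + q * n) c1 (n + l) (n + l)) T)) ≤ (q + 2) * ε := by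
  have hql : 0 ≤ (q : ℤ) * l := by positivity
  have hn : 0 ≤ n := by nlinarith
  have hln : l ≤ n := by nlinarith
  have hqn : n ≤ (q : ℤ) * n := le_mul_of_one_le_left hn (by exact_mod_cast hq)
  have lk : ∀ (a0 v0 v1 H' : ℤ) (M : Set (Zd d)), 0 ≤ v0 → 0 ≤ v1 → c0 - w0 ≤ a0 - v0 →
      a0 + v0 + l ≤ c0 + (q + 2) * n → v1 + l ≤ 2 * n → H' + (m + n) ≤ H + (q + 2) * (m + n) →
      Steer n (rect i j a0 c1 (v0 + l) (v1 + l)) M →
      (Ex p S fun T => ind (Ev ω0 o H' (rect i j a0 c1 v0 v1) T ∧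
        ¬Ev ω0 o (H' + (m + n)) M T)) ≤ ε := by
    intro a0 v0 v1 H' M b1 b2 b3 b4 b5 b6 b7
    have s1 : rect i j a0 c1 (v0 + l) (v1 + l) ⊆
        strip i j (c0 - w0 - l) (c0 + (q + 2) * n) c1 (2 * n) := fun y hy => by
      have := abs_le.1 hy.1
      exact ⟨by omega, by omega, hy.2.trans b5⟩
    refine hL ω0 S o i j a0 c1 v0 v1 H' M hij b1 b2 hω hS (fun h => ho (s1 h))
      (hd.mono_right (ins_mono s1)) (subset_trans (Set.inter_subset_inter_right _ (ins_mono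
        (Set.inter_subset_inter (fun y hy => ?_) (box_mono _ b6)))) hin) b7
    have := abs_le.1 hy.1
    exact ⟨by omega, by linarith, hy.2.trans (by omega)⟩
  have mv : ∀ t : ℕ, t ≤ q → (Ex p S fun T => ind (Ev ω0 o H (rect i j c0 c1 w0 w1) T ∧
      ¬Ev ω0 o (H + t * (m + n)) (rect i j (c0 + t * n) c1 (w0 + t * l) (w1 + t * l)) T)) ≤
      t * ε := by
    intro t
    induction t with
    | zero => intro _; simp [ind, Ex_const]
    | succ t ih =>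
      intro ht
      have t1 : (t : ℤ) + 1 ≤ q := by exact_mod_cast ht
      have t2 : 0 ≤ (t : ℤ) * l := by positivity
      have t3 : ((t : ℤ) + 1) * l ≤ q * l := mul_le_mul_of_nonneg_right t1 hl
      have t4 : ((t : ℤ) + 1) * n ≤ q * n := mul_le_mul_of_nonneg_right t1 hn
      have t5 : (t : ℤ) * l ≤ t * n := mul_le_mul_of_nonneg_left hln (by positivity)
      have t6 : ((t : ℤ) + 1) * (m + n) ≤ (q + 2) * (m + n) :=
        mul_le_mul_of_nonneg_right (by omega) (by omega)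
      have := Ex_trans h0 h1 (ih (by omega)) (lk (c0 + t * n) (w0 + t * l) (w1 + t * l)
        (H + t * (m + n)) _ (by omega) (by omega) (by omega) (by linarith) (by linarith)
        (by linarith) (steer_move hij (by omega)))
      push_cast
      convert this using 6 <;> ring
  have f0 := lk (c0 + q * n) (w0 + q * l) (w1 + q * l) (H + q * (m + n)) _ (by omega) (by omega)
    (by nlinarith) (by linarith) (by linarith) (by linarith)
    (steer_fix hij (by omega) (by linarith))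
  have f1 := lk (c0 + q * n) n (w1 + q * l + l) (H + q * (m + n) + (m + n))
    (rect i j (c0 + q * n) c1 (n + l) (n + l)) hn (by omega) (by omega) (by linarith) (by linarith)
    (by linarith) (by
      rw [rect_swap]
      intro x hx
      obtain ⟨i', j', s, t, a1, a2, a3, a4⟩ := steer_fix hij.symm (n := n) (by omega)
        (by linarith) x hx
      exact ⟨i', j', s, t, a1, a2, a3, fun y hy => ⟨(a4 hy).2, (a4 hy).1.trans (by omega)⟩⟩)
  have := Ex_trans h0 h1 (Ex_trans h0 h1 (mv q le_rfl) f0) f1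
  convert this using 6 <;> ring

end Vale.Agent.P151Z
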