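import Mathlib
import Vale.Agent.P151Z.Ex

/-! A Peierls bound for oriented site exploration in the quadrant. -/

namespace Vale.Agent.P151Z

open Finset

inductive Reach (X : ℤ × ℤ → Prop) : ℤ × ℤ → Prop
  | base : Reach X (0, 0)
  | e0 {v : ℤ × ℤ} : Reach X v → X v → Reach X (v + (1, 0))
  | e1 {v : ℤ × ℤ} : Reach X v → X v → Reach X (v + (0, 1))

lemma Reach.nonneg {X : ℤ × ℤ → Prop} {v : ℤ × ℤ} (h : Reach X v) : 0 ≤ v.1 ∧ 0 ≤ v.2 := by
  induction h with
  | base => simp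
  | e0 _ _ ih => simp only [Prod.fst_add, Prod.snd_add]; omega
  | e1 _ _ ih => simp only [Prod.fst_add, Prod.snd_add]; omega

abbrev Dart := (ℤ × ℤ) × (ℤ × ℤ)

def rot (d : ℤ × ℤ) : ℤ × ℤ := (-d.2, d.1)

def dec (x : Dart) (k : Fin 3) : Dart :=
  if k = 0 then (x.1 + x.2 + rot x.2, -rot x.2) else if k = 1 then (x.1 + rot x.2, x.2)
  else (x.1, rot x.2)

open Classical in
noncomputable def ch (C : Set (ℤ × ℤ)) (x : Dart) : Fin 3 :=
  if x.1 + x.2 + rot x.2 ∈ C then 0 else if x.1 + rot x.2 ∈ C then 1 else 2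

open Classical in
noncomputable def prv (C : Set (ℤ × ℤ)) (x : Dart) : Dart :=
  if x.1 + x.2 - rot x.2 ∈ C then (x.1 + x.2 - rot x.2, rot x.2)
  else if x.1 - rot x.2 ∈ C then (x.1 - rot x.2, x.2) else (x.1, -rot x.2)

def dirs : Finset (ℤ × ℤ) := {(1, 0), (0, 1), (-1, 0), (0, -1)}

def Valid (C : Set (ℤ × ℤ)) (x : Dart) : Prop := x.1 ∈ C ∧ x.1 + x.2 ∉ C ∧ x.2 ∈ dirs

lemma rot_dirs {d : ℤ × ℤ} (h : d ∈ dirs) : rot d ∈ dirs ∧ -rot d ∈ dirs := by
  revert d; decide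

lemma rot_rot (d : ℤ × ℤ) : rot (rot d) = -d := by ext <;> simp [rot]
lemma rot_neg (d : ℤ × ℤ) : rot (-d) = -rot d := by ext <;> simp [rot]

lemma Valid.next {C : Set (ℤ × ℤ)} {x : Dart} (h : Valid C x) :
    Valid C (dec x (ch C x)) ∧ prv C (dec x (ch C x)) = x := by
  obtain ⟨v, d⟩ := x
  obtain ⟨h1, h2, h3⟩ := h
  unfold ch
  split_ifs with a b
  · rw [show dec (v, d) 0 = (v + d + rot d, -rot d) from rfl]
    refine ⟨⟨a, by simpa using h2, (rot_dirs h3).2⟩, ?_⟩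
    have e : v + d + rot d + -rot d - rot (-rot d) = v := by rw [rot_neg, rot_rot]; ring
    rw [prv, if_pos (by rw [e]; exact h1), e, rot_neg, rot_rot, neg_neg]
  · rw [show dec (v, d) 1 = (v + rot d, d) from rfl]
    refine ⟨⟨b, by rwa [add_right_comm], h3⟩, ?_⟩
    have e : v + rot d + d - rot d = v + d := by ring
    rw [prv, if_neg (by rw [e]; exact h2), if_pos (by simpa using h1), add_sub_cancel_right]
  · rw [show dec (v, d) 2 = (v, rot d) from rfl]
    refine ⟨⟨h1, b, (rot_dirs h3).1⟩, ?_⟩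
    have e : v + rot d - rot (rot d) = v + d + rot d := by rw [rot_rot]; ring
    rw [prv, if_neg (by rw [e]; exact a), if_neg (by simpa [rot_rot] using h2), rot_rot, neg_neg]

def wk (c : ℕ → Fin 3) : ℕ → Dart
  | 0 => ((0, 0), (-1, 0))
  | t + 1 => dec (wk c t) (c t)

lemma wk_congr {c c' : ℕ → Fin 3} {t : ℕ} (h : ∀ s < t, c s = c' s) : wk c t = wk c' t := by
  induction t with
  | zero => rfl
  | succ t ih => rw [wk, wk, ih fun s hs => h s (by omega), h t (by omega)]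

def ext3 {l : ℕ} (c : Fin l → Fin 3) (t : ℕ) : Fin 3 := if h : t < l then c ⟨t, h⟩ else 0

def WW (l : ℕ) (c : ℕ → Fin 3) : Finset (ℤ × ℤ) :=
  ((range l).filter fun t => (wk c t).2.1 + (wk c t).2.2 = 1).image fun t => (wk c t).1 + (wk c t).2

lemma dec_psi (x : Dart) (k : Fin 3) :
    (dec x k).1.2 - (dec x k).1.1 - (dec x k).2.1 = x.1.2 - x.1.1 - x.2.1 + (x.2.1 + x.2.2) := by
  unfold dec
  split_ifs <;> simp [rot] <;> ring

lemma contour {C : Set (ℤ × ℤ)} (hC : C.Finite) (h0 : (0, 0) ∈ C) (h1 : (-1, 0) ∉ C) :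
    ∃ l : ℕ, 0 < l ∧ ∃ c : Fin l → Fin 3, l ≤ 4 * (WW l (ext3 c)).card ∧
      ∀ w ∈ WW l (ext3 c), w ∉ C ∧ ∃ v ∈ C, w = v + (1, 0) ∨ w = v + (0, 1) := by
  have hfin : {x : Dart | Valid C x}.Finite :=
    (hC.prod dirs.finite_toSet).subset fun x hx => ⟨hx.1, hx.2.2⟩
  have := hfin.to_subtype
  let f : {x : Dart | Valid C x} → {x : Dart | Valid C x} := fun x => ⟨_, x.2.next.1⟩
  have hf : Function.Injective f := fun x y h => Subtype.ext (by
    rw [← x.2.next.2, ← y.2.next.2]; exact congrArg (fun z => prv C z.1) h)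
  let x0 : {x : Dart | Valid C x} := ⟨((0, 0), (-1, 0)), h0, by simpa using h1, by decide⟩
  have hper := hf.mem_periodicPts x0
  let c : ℕ → Fin 3 := fun t => ch C (f^[t] x0).1
  have hw : ∀ t, wk c t = (f^[t] x0).1 := fun t => by
    induction t with
    | zero => rfl
    | succ t ih => rw [wk, ih, Function.iterate_succ_apply']
  obtain ⟨l, hl⟩ : ∃ l, l = Function.minimalPeriod f x0 := ⟨_, rfl⟩
  have hl0 : 0 < l := hl ▸ Function.minimalPeriod_pos_of_mem_periodicPts hper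
  have hinj : Set.InjOn (wk c) (Set.Iio l) := fun a ha b hb h =>
    Function.iterate_injOn_Iio_minimalPeriod (f := f) (x := x0) (hl ▸ ha) (hl ▸ hb)
      (Subtype.ext (by rwa [hw, hw] at h))
  have hv : ∀ t, Valid C (wk c t) := fun t => hw t ▸ (f^[t] x0).2
  have hW : WW l (ext3 fun t : Fin l => c t) = WW l c := by
    have : ∀ t ∈ range l, wk (ext3 fun t : Fin l => c t) t = wk c t := fun t ht =>
      wk_congr fun s hs => dif_pos (hs.trans (mem_range.1 ht))
    unfold WW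
    rw [filter_congr fun t ht => by rw [this t ht]]
    exact image_congr fun t ht => by simp only [this t (mem_filter.1 ht).1]
  have hd : ∀ d ∈ dirs, d.1 + d.2 = 1 → d = (1, 0) ∨ d = (0, 1) := by decide
  have hd' : ∀ d ∈ dirs, d.1 + d.2 = if d.1 + d.2 = 1 then 1 else -1 := by decide
  refine ⟨l, hl0, fun t => c t, ?_, ?_⟩
  · rw [hW]
    have a1 := sum_range_sub (fun t => (wk c t).1.2 - (wk c t).1.1 - (wk c t).2.1) l
    rw [hw l, hl, Function.iterate_minimalPeriod, ← hl, show x0.1 = wk c 0 from rfl, sub_self,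
      sum_congr rfl fun t _ => by rw [wk, dec_psi, add_sub_cancel_left, hd' _ (hv t).2.2],
      sum_ite] at a1
    have a2 := card_filter_add_card_filter_not (s := range l)
      (fun t => (wk c t).2.1 + (wk c t).2.2 = 1)
    have a3 := card_le_mul_card_image (f := fun t => (wk c t).1 + (wk c t).2)
      ((range l).filter fun t => (wk c t).2.1 + (wk c t).2.2 = 1) 2 fun b _ => by
        refine card_le_card_of_injOn (t := {((1 : ℤ), (0 : ℤ)), (0, 1)}) (fun t => (wk c t).2)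
          (fun t ht => ?_) fun a ha b hb h => ?_
        · simpa using hd _ (hv t).2.2 (mem_filter.1 (mem_filter.1 ht).1).2
        · have h2 := (mem_filter.1 ha).2.trans (mem_filter.1 hb).2.symm
          refine hinj (mem_range.1 (mem_filter.1 (mem_filter.1 ha).1).1)
            (mem_range.1 (mem_filter.1 (mem_filter.1 hb).1).1) (Prod.ext ?_ h)
          simp only at h h2
          rw [h] at h2
          exact add_right_cancel h2
    simp only [sum_const, card_range, nsmul_eq_mul] at a1 a2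
    unfold WW
    omega
  · rw [hW]
    intro w hw'
    obtain ⟨t, ht, rfl⟩ := mem_image.1 hw'
    exact ⟨(hv t).2.1, _, (hv t).1, (hd _ (hv t).2.2 (mem_filter.1 ht).2).imp (fun h => by rw [h])
      fun h => by rw [h]⟩

theorem peierls {E : Type*} [DecidableEq E] {p : ℝ} (h0 : 0 ≤ p) (h1 : p ≤ 1) {S : Finset E}
    (X : Finset E → ℤ × ℤ → Prop) (N : ℤ)
    (hX : ∀ W : Finset (ℤ × ℤ), (Ex p S fun T => ind (∀ w ∈ W, ¬X T w)) ≤
      ((1 / 15) ^ 4) ^ W.card) :
    (Ex p S fun T => ind (∀ v, Reach (X T) v → v.1 + v.2 < N)) ≤ 1 / 3 := by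
  have key : ∀ T, ∃ l : ℕ, (∀ v, Reach (X T) v → v.1 + v.2 < N) → ¬X T (0, 0) ∨
      ∃ c : Fin (l + 1) → Fin 3, l + 1 ≤ 4 * (WW (l + 1) (ext3 c)).card ∧
        ∀ w ∈ WW (l + 1) (ext3 c), ¬X T w := by
    intro T
    by_cases h : (∀ v, Reach (X T) v → v.1 + v.2 < N) ∧ X T (0, 0)
    · obtain ⟨l, hl, c, hc, hc'⟩ := contour (C := {v | Reach (X T) v ∧ X T v})
        (((Set.finite_Icc 0 N).prod (Set.finite_Icc 0 N)).subset fun v hv => by
          have := hv.1.nonneg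
          have := h.1 v hv.1
          simp only [Set.mem_prod, Set.mem_Icc]
          omega) ⟨.base, h.2⟩ fun h => by simpa using h.1.nonneg
      obtain ⟨l, rfl⟩ : ∃ l', l = l' + 1 := ⟨l - 1, by omega⟩
      refine ⟨l, fun _ => Or.inr ⟨c, hc, fun w hw hx => ?_⟩⟩
      obtain ⟨a1, v, hv, rfl | rfl⟩ := hc' w hw
      · exact a1 ⟨hv.1.e0 hv.2, hx⟩
      · exact a1 ⟨hv.1.e1 hv.2, hx⟩
    · exact ⟨0, fun h' => Or.inl fun h'' => h ⟨h', h''⟩⟩
  choose l hl using key
  obtain ⟨M, hM⟩ : ∃ M, ∀ T ⊆ S, l T < M :=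
    ⟨S.powerset.sup l + 1, fun T hT => Nat.lt_succ_of_le (le_sup (mem_powerset.2 hT))⟩
  refine le_trans (Ex_mono h0 h1 (g := fun T => ind (∀ w ∈ ({(0, 0)} : Finset (ℤ × ℤ)), ¬X T w) +
    ∑ k ∈ range M, ∑ c : Fin (k + 1) → Fin 3, ind (k + 1 ≤ 4 * (WW (k + 1) (ext3 c)).card ∧
      ∀ w ∈ WW (k + 1) (ext3 c), ¬X T w)) fun T hT => ?_) ?_
  · have s0 : ∀ k ∈ range M, 0 ≤ ∑ c : Fin (k + 1) → Fin 3,
        ind (k + 1 ≤ 4 * (WW (k + 1) (ext3 c)).card ∧ ∀ w ∈ WW (k + 1) (ext3 c), ¬X T w) :=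
      fun _ _ => sum_nonneg fun _ _ => ind_nonneg _
    by_cases h : ∀ v, Reach (X T) v → v.1 + v.2 < N
    · rw [ind_pos h]
      rcases hl T h with h2 | ⟨c, hc⟩
      · rw [ind_pos (by simpa using h2)]; linarith [sum_nonneg s0]
      · refine le_add_of_nonneg_of_le (ind_nonneg _) (le_trans ?_
          (single_le_sum s0 (mem_range.2 (hM T hT))))
        rw [← ind_pos hc]
        exact single_le_sum (f := fun c : Fin (l T + 1) → Fin 3 => ind (l T + 1 ≤ 4 *
          (WW (l T + 1) (ext3 c)).card ∧ ∀ w ∈ WW (l T + 1) (ext3 c), ¬X T w))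
          (fun _ _ => ind_nonneg _) (mem_univ c)
    · rw [ind_neg h]; exact add_nonneg (ind_nonneg _) (sum_nonneg s0)
  · rw [Ex_add, Ex_sum]
    have a1 := hX {(0, 0)}
    have a2 : ∀ k ∈ range M, (Ex p S fun T => ∑ c : Fin (k + 1) → Fin 3, ind (k + 1 ≤ 4 *
        (WW (k + 1) (ext3 c)).card ∧ ∀ w ∈ WW (k + 1) (ext3 c), ¬X T w)) ≤
        1 / 4 * (1 / 5) ^ k - 1 / 4 * (1 / 5) ^ (k + 1) := by
      intro k _
      rw [Ex_sum]
      refine (sum_le_card_nsmul _ _ ((1 / 15) ^ (k + 1)) fun c _ => ?_).trans (le_of_eq ?_)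
      · by_cases hc : k + 1 ≤ 4 * (WW (k + 1) (ext3 c)).card
        · simp only [hc, true_and]
          refine (hX _).trans ?_
          rw [← pow_mul]
          exact pow_le_pow_of_le_one (by norm_num) (by norm_num) hc
        · simp only [hc, false_and, ind_neg not_false, Ex_const]; positivity
      · simp only [card_univ, Fintype.card_fun, Fintype.card_fin, nsmul_eq_mul]
        push_cast
        rw [← mul_pow]; norm_num; ring
    have a3 := sum_le_sum a2
    rw [sum_range_sub' fun k => (1 / 4 * (1 / 5) ^ k : ℝ)] at a3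
    have a4 : (0 : ℝ) ≤ 1 / 4 * (1 / 5) ^ M := by positivity
    rw [card_singleton] at a1
    norm_num at a1 a3 ⊢
    linarith

end Vale.Agent.P151Z
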