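import Mathlib
import Vale.Agent.P151Z.Chain
import Vale.Agent.P151Z.Peierls

/-! The coarse exploration. -/

namespace Vale.Agent.P151Z

lemma prod_bound {E ι : Type*} [DecidableEq E] [DecidableEq ι] {p a : ℝ} (h0 : 0 ≤ p) (h1 : p ≤ 1)
    (ha : 0 ≤ a) {S : Finset E} (R : ι → Set E) (lev : ι → ℤ) (Y : ι → Finset E → Prop)
    (hY : ∀ w z, w ≠ z → lev w ≤ lev z → ∀ T T', Y w (mix (R z)ᶜ T T') ↔ Y w T)
    (hb : ∀ z, ∀ T ⊆ S, (Ex p S fun T' => ind (Y z (mix (R z)ᶜ T T'))) ≤ a) (W : Finset ι) :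
    (Ex p S fun T => ind (∀ w ∈ W, Y w T)) ≤ a ^ W.card := by
  induction W using Finset.induction_on_max_value lev with
  | empty => simp [ind, Ex_const]
  | insert z W hz hW ih =>
    rw [Finset.card_insert_of_notMem hz, pow_succ', Ex_cond (R z)ᶜ]
    refine le_trans (Ex_mono h0 h1 (g := fun T => a * ind (∀ w ∈ W, Y w T)) fun T hT => ?_) ?_
    · simp only [Finset.forall_mem_insert, ind_and]
      rw [Ex_congr (g := fun T' => ind (Y z (mix (R z)ᶜ T T')) * ind (∀ w ∈ W, Y w T))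
        fun T' _ => by rw [ind_congr (forall₂_congr fun w hw =>
          hY w z (fun h => hz (h ▸ hw)) (hW w hw) T T')], Ex_mul']
      exact mul_le_mul_of_nonneg_right (hb z T hT) (ind_nonneg _)
    · rw [Ex_mul]; exact mul_le_mul_of_nonneg_left ih ha

variable {d : ℕ}

structure Par (d : ℕ) where
  i : Fin d
  j : Fin d
  m : ℤ
  n : ℤ
  l : ℤ
  N : ℕ
  p : ℝ
  hij : i ≠ j
  hm : 0 ≤ m
  hl : m < l
  hn : 11 * l ≤ n
  h0 : 0 ≤ p
  h1 : p ≤ 1

namespace Par

variable (P : Par d)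

def cz (y : Zd d) : ℤ × ℤ := ((y P.i + 4 * P.n) / (8 * P.n), (y P.j + 4 * P.n) / (8 * P.n))

def cellE : Sym2 (Zd d) → ℤ × ℤ := Sym2.lift ⟨fun a b => P.cz a ⊔ P.cz b, fun _ _ => sup_comm _ _⟩

def Ez (z : ℤ × ℤ) : Set (Sym2 (Zd d)) := {e | P.cellE e = z}

def Past (t : ℤ) : Set (Sym2 (Zd d)) := {e | (P.cellE e).1 + (P.cellE e).2 < t}

def Mz (z : ℤ × ℤ) : Set (Zd d) :=
  rect P.i P.j (8 * P.n * z.1) (8 * P.n * z.2) (P.n + P.l) (P.n + P.l)

def Hh (t : ℤ) : ℤ := t * (10 * (P.m + P.n))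

noncomputable def S : Finset (Sym2 (Zd d)) := bedges 0 (P.Hh (P.N + 1))

def w0 : Set (Sym2 (Zd d)) := ↑(bedges (0 : Zd d) P.m)

noncomputable def bad (Q : Set (Sym2 (Zd d))) (z : ℤ × ℤ) (T : Finset (Sym2 (Zd d))) : ℝ :=
  Ex P.p P.S fun T' => ind (¬Ev P.w0 0 (P.Hh (z.1 + z.2)) (P.Mz z) (res Q T ∪ res (P.Ez z) T'))

def alive (e : ℝ) (z : ℤ × ℤ) (T : Finset (Sym2 (Zd d))) : Prop :=
  P.bad (P.Past (z.1 + z.2)) z T ≤ e

def X (e : ℝ) (z : ℤ × ℤ) (T : Finset (Sym2 (Zd d))) : Prop :=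
  P.alive e z T → P.bad (P.Past (z.1 + z.2) ∪ P.Ez z) (z + (1, 0)) T ≤ e ∧
    P.bad (P.Past (z.1 + z.2) ∪ P.Ez z) (z + (0, 1)) T ≤ e

lemma npos : 0 < P.n := by have := P.hm; have := P.hl; have := P.hn; omega

lemma div_eq {y z : ℤ} (h1 : 8 * P.n * z - 4 * P.n ≤ y) (h2 : y < 8 * P.n * z + 4 * P.n) :
    (y + 4 * P.n) / (8 * P.n) = z := by
  have := P.npos
  exact ((Int.ediv_emod_unique (r := y + 4 * P.n - 8 * P.n * z) (by omega)).2
    ⟨by ring, by omega, by omega⟩).1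

lemma le_of_div {y z : ℤ} (h : z ≤ (y + 4 * P.n) / (8 * P.n)) : 8 * P.n * z - 4 * P.n ≤ y := by
  have := (Int.le_ediv_iff_mul_le (by have := P.npos; omega)).1 h
  linarith

lemma ins_two {U : Set (Zd d)} {z c : ℤ × ℤ} (hzc : z ≤ c)
    (h : ∀ y ∈ U, P.cz y = z ∨ P.cz y = c) : ins U ⊆ P.Ez z ∪ P.Ez c := by
  intro e he
  induction e using Sym2.ind with
  | _ a b =>
    have e1 : P.cellE s(a, b) = P.cz a ⊔ P.cz b := rfl
    simp only [Ez, Set.mem_union, Set.mem_ofPred_eq, e1]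
    rcases h a (mk_mem_ins.1 he).1 with h1 | h1 <;> rcases h b (mk_mem_ins.1 he).2 with h2 | h2 <;>
      simp [h1, h2, hzc]

lemma Ev_mono {ω0 ω1 : Set (Sym2 (Zd d))} {o : Zd d} {H : ℤ} {M : Set (Zd d)}
    {T T' : Finset (Sym2 (Zd d))} (h : ω0 ∪ ↑T ⊆ ω1 ∪ ↑T') (hE : Ev ω0 o H M T) : Ev ω1 o H M T' :=
  cl_mono (Set.inter_subset_inter_left _ h) subset_rfl hE

lemma bad_mono {Q Q' : Set (Sym2 (Zd d))} (h : Q ⊆ Q') (z : ℤ × ℤ) (T : Finset (Sym2 (Zd d))) :
    P.bad Q' z T ≤ P.bad Q z T :=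
  Ex_mono P.h0 P.h1 fun T' _ => ind_mono fun h1 h2 => h1 (Ev_mono (fun e he => by
    simp only [Finset.coe_union, Set.mem_union, Finset.mem_coe, mem_res] at he ⊢
    have := @h e
    tauto) h2)

lemma bad_congr {Q : Set (Sym2 (Zd d))} (z : ℤ × ℤ) {T T' : Finset (Sym2 (Zd d))}
    (h : ∀ e ∈ Q, e ∈ T ↔ e ∈ T') : P.bad Q z T = P.bad Q z T' := by
  rw [bad, bad, show res Q T = res Q T' from by
    ext e; simp only [mem_res]; exact and_congr_left (h e)]

lemma S_sub : ↑P.S ⊆ (zd d).edgeSet := fun _ he => (mem_bedges.1 he).1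

lemma w0_sub : P.w0 ⊆ (zd d).edgeSet := fun _ he => (mem_bedges.1 he).1

lemma w0_cell {e : Sym2 (Zd d)} (he : e ∈ P.w0) : P.cellE e = (0, 0) := by
  have := P.hm; have := P.hl; have := P.hn
  refine (or_self_iff).1 (P.ins_two (z := (0, 0)) le_rfl (fun y hy => Or.inl ?_) (mem_bedges.1 he).2)
  have a1 := abs_le.1 (hy P.i)
  have a2 := abs_le.1 (hy P.j)
  simp only [Pi.zero_apply] at a1 a2
  exact Prod.ext (P.div_eq (by omega) (by omega)) (P.div_eq (by omega) (by omega))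

lemma blk_link {ε : ℝ} (hL : LinkOK d P.p P.m P.n P.l ε) {z c : ℤ × ℤ} (hz1 : 1 ≤ z.1)
    (hzN : z.1 + z.2 ≤ P.N) (hc : c = z + (1, 0) ∨ c = z + (0, 1)) (hz2 : 0 ≤ z.2)
    {T : Finset (Sym2 (Zd d))} (hT : T ⊆ P.S) :
    (Ex P.p (res (P.Ez z ∪ P.Ez c) P.S) fun T' =>
      ind (Ev (P.w0 ∪ ↑(res (P.Past (z.1 + z.2)) T)) 0 (P.Hh (z.1 + z.2)) (P.Mz z) T' ∧
        ¬Ev (P.w0 ∪ ↑(res (P.Past (z.1 + z.2)) T)) 0 (P.Hh (c.1 + c.2)) (P.Mz c) T')) ≤ 10 * ε := by
  have hm := P.hm; have hl := P.hl; have hn := P.hn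
  have hz8 : 8 * P.n ≤ 8 * P.n * z.1 := le_mul_of_one_le_right (by omega) hz1
  have hlev : c.1 + c.2 = z.1 + z.2 + 1 := by
    rcases hc with rfl | rfl <;> simp only [Prod.fst_add, Prod.snd_add] <;> ring
  have hω : P.w0 ∪ ↑(res (P.Past (z.1 + z.2)) T) ⊆ (zd d).edgeSet :=
    Set.union_subset P.w0_sub fun e he => P.S_sub (hT (mem_res.1 he).1)
  have hS : ↑(res (P.Ez z ∪ P.Ez c) P.S) ⊆ (zd d).edgeSet := fun e he => P.S_sub (mem_res.1 he).1
  have hd : ∀ U, ins U ⊆ P.Ez z ∪ P.Ez c →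
      Disjoint (P.w0 ∪ ↑(res (P.Past (z.1 + z.2)) T)) (ins U) := fun U hU =>
    Set.disjoint_left.2 fun e he he' => by
      have h2 : (P.cellE e).1 + (P.cellE e).2 < z.1 + z.2 := he.elim
        (fun h => by rw [P.w0_cell h]; simp only; omega) fun h => (mem_res.1 h).2
      rcases hU he' with h | h <;> rw [show P.cellE e = _ from h] at h2 <;> omega
  have hH : P.Hh (z.1 + z.2) + ((8 : ℕ) + 2) * (P.m + P.n) = P.Hh (c.1 + c.2) := by
    rw [hlev, Hh, Hh]; push_cast; ring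
  have hin : ∀ U, ins U ⊆ P.Ez z ∪ P.Ez c → (zd d).edgeSet ∩ ins (U ∩ box 0 (P.Hh (z.1 + z.2) +
      ((8 : ℕ) + 2) * (P.m + P.n))) ⊆ res (P.Ez z ∪ P.Ez c) P.S := fun U hU e he =>
    mem_res.2 ⟨mem_bedges.2 ⟨he.1, ins_mono (Set.inter_subset_right.trans (box_mono _ (by
      rw [hH, hlev]
      exact mul_le_mul_of_nonneg_right (by omega) (by omega)))) he.2⟩,
      hU (ins_mono Set.inter_subset_left he.2)⟩
  rcases hc with rfl | rfl
  · have hU : ∀ a b w, 8 * P.n * z.1 - 4 * P.n ≤ a → b < 8 * P.n * z.1 + 12 * P.n → w < 4 * P.n →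
        ins (strip P.i P.j a b (8 * P.n * z.2) w) ⊆ P.Ez z ∪ P.Ez (z + (1, 0)) :=
      fun a b w a1 a2 a3 => P.ins_two (by constructor <;> simp) fun y hy => by
        have a4 := abs_le.1 hy.2.2
        have a5 := hy.1
        have a6 := hy.2.1
        rcases lt_or_ge (y P.i) (8 * P.n * z.1 + 4 * P.n) with h | h
        · exact Or.inl (Prod.ext (P.div_eq (by omega) h) (P.div_eq (by omega) (by omega)))
        · exact Or.inr (Prod.ext (P.div_eq (by simp; linarith) (by simp; linarith))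
            (P.div_eq (by simp; omega) (by simp; omega)))
    have := chain P.h0 P.h1 hm (by omega) hL P.hij (c0 := 8 * P.n * z.1) (c1 := 8 * P.n * z.2)
      (w0 := P.n + P.l) (w1 := P.n + P.l) (H := P.Hh (z.1 + z.2)) (q := 8) (o := 0) (by norm_num)
      (by omega) (by omega) (by push_cast; omega) (by push_cast; omega) hω hS
      (fun h => by have := h.1; simp only [Pi.zero_apply] at this; omega)
      (hd _ (hU _ _ _ (by omega) (by push_cast; omega) (by omega)))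
      (hin _ (hU _ _ _ (by omega) (by push_cast; omega) (by omega)))
    rw [hH] at this
    rw [show P.Mz (z + (1, 0)) = rect P.i P.j (8 * P.n * z.1 + (8 : ℕ) * P.n) (8 * P.n * z.2)
      (P.n + P.l) (P.n + P.l) from by
      simp only [Mz, Prod.fst_add, Prod.snd_add]; congr 1 <;> push_cast <;> ring]
    exact this.trans (le_of_eq (by norm_num))
  · have hU : ∀ a b w, 8 * P.n * z.2 - 4 * P.n ≤ a → b < 8 * P.n * z.2 + 12 * P.n → w < 4 * P.n →
        ins (strip P.j P.i a b (8 * P.n * z.1) w) ⊆ P.Ez z ∪ P.Ez (z + (0, 1)) :=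
      fun a b w a1 a2 a3 => P.ins_two (by constructor <;> simp) fun y hy => by
        have a4 := abs_le.1 hy.2.2
        have a5 := hy.1
        have a6 := hy.2.1
        rcases lt_or_ge (y P.j) (8 * P.n * z.2 + 4 * P.n) with h | h
        · exact Or.inl (Prod.ext (P.div_eq (by omega) (by omega)) (P.div_eq (by omega) h))
        · exact Or.inr (Prod.ext (P.div_eq (by simp; omega) (by simp; omega))
            (P.div_eq (by simp; linarith) (by simp; linarith)))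
    have := chain P.h0 P.h1 hm (by omega) hL P.hij.symm (c0 := 8 * P.n * z.2)
      (c1 := 8 * P.n * z.1)
      (w0 := P.n + P.l) (w1 := P.n + P.l) (H := P.Hh (z.1 + z.2)) (q := 8) (o := 0) (by norm_num)
      (by omega) (by omega) (by push_cast; omega) (by push_cast; omega) hω hS
      (fun h => by have := abs_le.1 h.2.2; simp only [Pi.zero_apply] at this; omega)
      (hd _ (hU _ _ _ (by omega) (by push_cast; omega) (by omega)))
      (hin _ (hU _ _ _ (by omega) (by push_cast; omega) (by omega)))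
    rw [hH, rect_swap P.j, rect_swap P.j] at this
    rw [show P.Mz (z + (0, 1)) = rect P.i P.j (8 * P.n * z.1) (8 * P.n * z.2 + (8 : ℕ) * P.n)
      (P.n + P.l) (P.n + P.l) from by
      simp only [Mz, Prod.fst_add, Prod.snd_add]; congr 1 <;> push_cast <;> ring]
    exact this.trans (le_of_eq (by norm_num))

lemma X_bound {ε e : ℝ} (he : 0 < e) (hL : LinkOK d P.p P.m P.n P.l ε) {z : ℤ × ℤ} (hz1 : 1 ≤ z.1)
    (hzN : z.1 + z.2 ≤ P.N) (hz2 : 0 ≤ z.2) {T : Finset (Sym2 (Zd d))} (hT : T ⊆ P.S) :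
    (Ex P.p P.S fun T' => ind (¬P.X e z (mix (P.Ez z)ᶜ T T'))) ≤ e + 20 * ε / e := by
  have hp : ∀ x, x ∈ P.Past (z.1 + z.2) → x ∉ P.Ez z := fun x h h' => by
    have : (P.cellE x).1 + (P.cellE x).2 < _ := h
    rw [show P.cellE x = z from h'] at this; omega
  have key : ∀ c, c = z + (1, 0) ∨ c = z + (0, 1) → (Ex P.p P.S fun T' =>
      ind (Ev P.w0 0 (P.Hh (z.1 + z.2)) (P.Mz z) (res (P.Past (z.1 + z.2)) T ∪ res (P.Ez z) T')) *
        P.bad (P.Past (z.1 + z.2) ∪ P.Ez z) c (mix (P.Ez z)ᶜ T T')) ≤ 10 * ε := by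
    intro c hc
    refine le_trans ?_ (P.blk_link hL hz1 hzN hc hz2 hT)
    have hcz : ∀ x, x ∈ P.Ez c → x ∉ P.Ez z := fun x h h' => by
      have : c = z := (show P.cellE x = c from h).symm.trans h'
      rcases hc with rfl | rfl <;> simp at this
    rw [← Ex_res, Ex_cond (P.Ez z) fun T' => ind (_ ∧ _)]
    refine Ex_mono P.h0 P.h1 fun T' _ => ?_
    rw [bad, ← Ex_mul]
    refine Ex_mono P.h0 P.h1 fun T'' _ => ?_
    rw [← ind_and]
    refine ind_mono fun h => ⟨Ev_mono (fun x hx => ?_) h.1, fun h' => h.2 (Ev_mono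
      (fun x hx => ?_) h')⟩
    · simp only [Finset.coe_union, Set.mem_union, Finset.mem_coe, mem_res, mem_mix] at hx ⊢
      tauto
    · have := hp x
      have := hcz x
      simp only [Finset.coe_union, Set.mem_union, Finset.mem_coe, mem_res, mem_mix,
        Set.mem_compl_iff] at hx ⊢
      tauto
  have k1 := key _ (Or.inl rfl)
  have k2 := key _ (Or.inr rfl)
  have b0 : ∀ Q c T, 0 ≤ P.bad Q c T := fun Q c T =>
    Ex_nonneg P.h0 P.h1 fun _ _ => ind_nonneg _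
  have hε : 0 ≤ 10 * ε := le_trans (Ex_nonneg P.h0 P.h1 fun _ _ =>
    mul_nonneg (ind_nonneg _) (b0 _ _ _)) k1
  have hal : ∀ T', P.alive e z (mix (P.Ez z)ᶜ T T') ↔ P.alive e z T := fun T' => by
    rw [alive, alive, P.bad_congr z (T' := T) fun x hx => by simp [mem_mix, hp x hx]]
  by_cases ha : P.alive e z T
  · refine le_of_mul_le_mul_left ?_ he
    rw [mul_add, mul_div_cancel₀ _ he.ne', ← Ex_mul]
    refine le_trans ?_ (show e * P.bad (P.Past (z.1 + z.2)) z T + (_ + _) ≤ _ from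
      add_le_add (mul_le_mul_of_nonneg_left ha he.le) ((add_le_add k1 k2).trans (by linarith)))
    rw [bad, ← Ex_mul, ← Ex_add, ← Ex_add]
    refine Ex_mono P.h0 P.h1 fun T' _ => ?_
    have c1 := b0 (P.Past (z.1 + z.2) ∪ P.Ez z) (z + (1, 0)) (mix (P.Ez z)ᶜ T T')
    have c2 := b0 (P.Past (z.1 + z.2) ∪ P.Ez z) (z + (0, 1)) (mix (P.Ez z)ᶜ T T')
    by_cases hA : Ev P.w0 0 (P.Hh (z.1 + z.2)) (P.Mz z)
      (res (P.Past (z.1 + z.2)) T ∪ res (P.Ez z) T')
    · rw [ind_pos hA, ind_neg (not_not.2 hA)]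
      by_cases hX : P.X e z (mix (P.Ez z)ᶜ T T')
      · rw [ind_neg (not_not.2 hX)]; linarith
      · rw [ind_pos hX]
        rcases not_and_or.1 fun h => hX fun _ => h with h | h <;> linarith [not_le.1 h]
    · rw [ind_neg hA, ind_pos hA]
      nlinarith [ind_le_one (¬P.X e z (mix (P.Ez z)ᶜ T T'))]
  · refine Ex_le P.h0 P.h1 fun T' _ => ?_
    rw [ind_neg (P := ¬P.X e z (mix (P.Ez z)ᶜ T T')) (not_not.2 fun h => absurd ((hal T').1 h) ha)]
    have : 0 ≤ 20 * ε / e := div_nonneg (by linarith) he.le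
    linarith

lemma start {ε e δ : ℝ} (he : 0 < e) (hL : LinkOK d P.p P.m P.n P.l ε)
    (hC : Crit d P.p P.m P.n δ) :
    (Ex P.p P.S fun T => ind (¬P.alive e (1, 0) T)) ≤ (δ + 9 * ε) / e := by
  have hm := P.hm; have hl := P.hl; have hn := P.hn
  have hN : 10 * (P.m + P.n) ≤ P.Hh (P.N + 1) :=
    le_mul_of_one_le_left (by omega) (by omega)
  have hU : ∀ a b w, -(4 * P.n) ≤ a → b < 12 * P.n → w < 4 * P.n →
      ins (strip P.i P.j a b 0 w) ⊆ P.Past 1 ∪ P.Ez (1, 0) := fun a b w a1 a2 a3 =>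
    subset_trans (P.ins_two (z := (0, 0)) (c := (1, 0)) (by constructor <;> simp) fun y hy => by
      have a4 := abs_le.1 hy.2.2
      have a5 := hy.1
      have a6 := hy.2.1
      rcases lt_or_ge (y P.i) (4 * P.n) with h | h
      · exact Or.inl (Prod.ext (P.div_eq (by omega) (by omega)) (P.div_eq (by omega) (by omega)))
      · exact Or.inr (Prod.ext (P.div_eq (by omega) (by omega)) (P.div_eq (by omega) (by omega))))
      (Set.union_subset_union_left _ fun x hx => by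
        simp [Past, show P.cellE x = (0, 0) from hx])
  have k1 := chain P.h0 P.h1 hm (by omega) hL P.hij (c0 := P.n) (c1 := 0) (w0 := 0) (w1 := P.n)
    (H := P.m + P.n) (q := 7) (o := 0) (S := res (P.Past 1 ∪ P.Ez (1, 0)) P.S) (by norm_num)
    le_rfl le_rfl (by push_cast; omega) (by push_cast; omega) P.w0_sub
    (fun e he => P.S_sub (mem_res.1 he).1)
    (fun h => by have := h.1; simp only [Pi.zero_apply] at this; omega)
    (Set.disjoint_left.2 fun e he he' => by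
      induction e using Sym2.ind with
      | _ a b =>
        have a1 := abs_le.1 ((mk_mem_ins.1 (mem_bedges.1 he).2).1 P.i)
        have a2 := (mk_mem_ins.1 he').1.1
        simp only [Pi.zero_apply] at a1
        omega)
    (fun e he => mem_res.2 ⟨mem_bedges.2 ⟨he.1, ins_mono (Set.inter_subset_right.trans
      (box_mono _ (by push_cast; omega))) he.2⟩, hU _ _ _ (by omega) (by push_cast; omega)
      (by omega) (ins_mono Set.inter_subset_left he.2)⟩)
  have k2 : (Ex P.p (res (P.Past 1 ∪ P.Ez (1, 0)) P.S) fun T => ind (True ∧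
      ¬Ev P.w0 0 (P.m + P.n) (rect P.i P.j P.n 0 0 P.n) T)) ≤ δ := by
    refine le_trans ?_ (hC 0 P.i P.j 1 1 P.hij rfl rfl)
    rw [fail, show bedges (0 : Zd d) P.n = res (↑(bedges (0 : Zd d) P.n) : Set (Sym2 (Zd d)))
      (res (P.Past 1 ∪ P.Ez (1, 0)) P.S) from by
      ext e
      simp only [mem_res, Finset.mem_coe, iff_and_self]
      intro h
      refine ⟨mem_bedges.2 ⟨(mem_bedges.1 h).1, ins_mono (box_mono _ (by omega))
        (mem_bedges.1 h).2⟩, hU (-P.n) P.n P.n (by omega) (by omega) (by omega)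
        (ins_mono (fun y hy => ?_) (mem_bedges.1 h).2)⟩
      have a1 := abs_le.1 (hy P.i)
      simp only [Pi.zero_apply] at a1
      exact ⟨by omega, by omega, hy P.j⟩, ← Ex_res (↑(bedges (0 : Zd d) P.n) : Set (Sym2 (Zd d)))]
    refine Ex_mono P.h0 P.h1 fun T _ => ind_mono fun h => Set.disjoint_left.2
      fun y hy ⟨b, hb, hc⟩ => h.2 ⟨b, ⟨?_, hb.1 P.j⟩, (hc.mono fun e he => ?_).trans
      ((box_conn hy (∑ k, |(0 : Zd d) k - y k|).toNat 0 (fun k => by simpa using hm) (by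
        rw [Int.toNat_of_nonneg (Finset.sum_nonneg fun _ _ => abs_nonneg _)])).symm.mono
        fun e he => ⟨Or.inl he, ins_mono (box_mono _ (by omega)) (mem_bedges.1 he).2⟩)⟩
    · have := hb.2.1
      simp only [Pi.zero_apply] at this
      rw [abs_le]; omega
    · exact ⟨Or.inr (mem_res.1 he).1, ins_mono (box_mono _ (by omega))
        (mem_bedges.1 (mem_res.1 he).2).2⟩
  have k3 := Ex_trans P.h0 P.h1 k2 k1
  rw [← Ex_res, Ex_cond (P.Ez (1, 0))ᶜ] at k3
  rw [le_div_iff₀ he, ← Ex_mul']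
  refine le_trans (Ex_mono P.h0 P.h1 fun T _ => ?_) (k3.trans (le_of_eq (by norm_num)))
  by_cases ha : P.alive e (1, 0) T
  · rw [ind_neg (not_not.2 ha), zero_mul]
    exact Ex_nonneg P.h0 P.h1 fun _ _ => ind_nonneg _
  · rw [ind_pos ha, one_mul]
    refine (not_le.1 ha).le.trans (Ex_mono P.h0 P.h1 fun T' _ => ind_mono fun h =>
      ⟨trivial, fun h' => h ?_⟩)
    have e1 : P.Hh (1 + 0) = P.m + P.n + ((7 : ℕ) + 2) * (P.m + P.n) := by
      rw [Hh]; push_cast; ring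
    have e2 : P.Mz (1, 0) = rect P.i P.j (P.n + (7 : ℕ) * P.n) 0 (P.n + P.l) (P.n + P.l) := by
      rw [Mz]; congr 1 <;> push_cast <;> ring
    rw [e1, e2]
    refine Ev_mono (fun x hx => ?_) h'
    simp only [Finset.coe_union, Set.mem_union, Finset.mem_coe, mem_res, mem_mix,
      Set.mem_compl_iff, add_zero] at hx ⊢
    tauto

lemma far_of_alive {e : ℝ} (he : e < 1) {z : ℤ × ℤ} (hz : z.1 + z.2 = P.N + 1)
    {T : Finset (Sym2 (Zd d))} (h : P.alive e z T) :
    ∃ y : Zd d, (P.N : ℤ) - 2 ≤ y P.i + y P.j ∧ conn (P.w0 ∪ ↑T) 0 y := by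
  have hm := P.hm; have hl := P.hl; have hn := P.hn
  obtain ⟨T', hT', b, hb, hc⟩ : ∃ T' ⊆ P.S, Ev P.w0 0 (P.Hh (z.1 + z.2)) (P.Mz z)
      (res (P.Past (z.1 + z.2)) T ∪ res (P.Ez z) T') := by
    by_contra hcon
    push Not at hcon
    rw [alive, bad, Ex_congr (g := fun _ => 1) fun T' hT' => ind_pos (hcon T' hT'), Ex_const] at h
    linarith
  have e1 : 8 * P.n * z.1 + 8 * P.n * z.2 = 8 * P.n * P.N + 8 * P.n := by
    rw [← mul_add, hz]; ring
  have e2 : (P.N : ℤ) ≤ 8 * P.n * P.N := le_mul_of_one_le_left (by omega) (by omega)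
  obtain ⟨a, ha, hc'⟩ := first_entry (U := {y | (P.N : ℤ) - 2 ≤ y P.i + y P.j}) hc.symm (by
    have a1 := abs_le.1 hb.1
    have a2 := abs_le.1 hb.2
    simp only [Set.mem_ofPred_eq]
    omega)
  refine ⟨a, ha, hc'.mono fun x hx => ?_⟩
  rcases hx.1.1 with h1 | h1
  · exact Or.inl h1
  rcases Finset.mem_union.1 h1 with h1 | h1
  · exact Or.inr (mem_res.1 h1).1
  refine absurd ?_ hx.2
  induction x using Sym2.ind with
  | _ u v =>
    have hadj : (zd d).Adj u v := P.S_sub (hT' (mem_res.1 h1).1)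
    have a1 := abs_le.1 (adj_lip hadj P.i)
    have a2 := abs_le.1 (adj_lip hadj P.j)
    have a3 : P.cz u ⊔ P.cz v = z := (mem_res.1 h1).2
    have a4 : z.1 ≤ (P.cz u).1 ∨ z.1 ≤ (P.cz v).1 := by rw [← a3]; exact le_sup_iff.1 le_rfl
    have a5 : z.2 ≤ (P.cz u).2 ∨ z.2 ≤ (P.cz v).2 := by rw [← a3]; exact le_sup_iff.1 le_rfl
    have a6 := a4.imp P.le_of_div P.le_of_div
    have a7 := a5.imp P.le_of_div P.le_of_div
    refine mk_mem_ins.2 ⟨?_, ?_⟩ <;> simp only [Set.mem_ofPred_eq] <;> omega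

theorem far (hN : 0 < P.N) (hL : LinkOK d P.p P.m P.n P.l (((1 / 15) ^ 4 / 2) ^ 2 / 20))
    (hC : Crit d P.p P.m P.n (((1 / 15) ^ 4 / 2) ^ 2 / 20)) :
    P.p ^ (bedges (0 : Zd d) P.m).card / 2 ≤
      Ex P.p P.S fun T => ind (∃ y : Zd d, (P.N : ℤ) - 2 ≤ y P.i + y P.j ∧ conn ↑T 0 y) := by
  obtain ⟨e, he⟩ : ∃ e : ℝ, e = (1 / 15) ^ 4 / 2 := ⟨_, rfl⟩
  have he0 : 0 < e := by rw [he]; norm_num
  have he1 : e < 1 / 6 := by rw [he]; norm_num
  rw [← he] at hL hC
  let X' : Finset (Sym2 (Zd d)) → ℤ × ℤ → Prop := fun T v =>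
    0 ≤ v.1 ∧ 0 ≤ v.2 ∧ v.1 + v.2 < P.N → P.X e (v + (1, 0)) T
  have k1 := peierls P.h0 P.h1 (S := P.S) X' P.N (prod_bound P.h0 P.h1 (by norm_num)
    (fun v => P.Ez (v + (1, 0))) (fun v => v.1 + v.2) (fun v T => ¬X' T v) (fun w z hwz hl T T' => by
      have a1 : ∀ x ∈ P.Past ((w + (1, 0)).1 + (w + (1, 0)).2) ∪ P.Ez (w + (1, 0)),
          x ∈ mix (P.Ez (z + (1, 0)))ᶜ T T' ↔ x ∈ T := fun x hx => by
        have : x ∉ P.Ez (z + (1, 0)) := fun h => by
          rcases hx with hx | hx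
          · simp only [Past, Set.mem_ofPred_eq, show P.cellE x = _ from h, Prod.fst_add,
              Prod.snd_add] at hx
            omega
          · exact hwz (add_right_cancel ((show P.cellE x = _ from hx).symm.trans h))
        simp [mem_mix, this]
      simp only [X', X, alive, P.bad_congr _ a1, P.bad_congr _ fun x hx => a1 x (Or.inl hx)])
    fun v T hT => by
      by_cases hv : 0 ≤ v.1 ∧ 0 ≤ v.2 ∧ v.1 + v.2 < P.N
      · simp only [X', hv, and_self, forall_const]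
        refine (P.X_bound he0 hL (by simp; omega) (by simp; omega) (by simp; omega) hT).trans
          (le_of_eq ?_)
        field_simp
        rw [he]; norm_num
      · simp only [X', hv, false_imp_iff, not_true, ind_neg not_false, Ex_const]
        norm_num)
  have k2 := P.start he0 hL hC
  have k3 : (e ^ 2 / 20 + 9 * (e ^ 2 / 20)) / e ≤ 1 / 6 := by
    rw [div_le_iff₀ he0]; nlinarith
  have k4 : 1 / 2 ≤ Ex P.p P.S fun T =>
      ind (∃ y : Zd d, (P.N : ℤ) - 2 ≤ y P.i + y P.j ∧ conn (P.w0 ∪ ↑T) 0 y) := by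
    refine le_trans (b := Ex P.p P.S fun T => 1 - ind (∀ v, Reach (X' T) v → v.1 + v.2 < P.N) -
      ind (¬P.alive e (1, 0) T)) (by rw [Ex_sub, Ex_sub, Ex_const]; linarith)
      (Ex_mono P.h0 P.h1 fun T _ => ?_)
    by_cases h1 : ∀ v, Reach (X' T) v → v.1 + v.2 < P.N
    · rw [ind_pos h1]; linarith [ind_nonneg (¬P.alive e (1, 0) T),
        ind_nonneg (∃ y : Zd d, (P.N : ℤ) - 2 ≤ y P.i + y P.j ∧ conn (P.w0 ∪ ↑T) 0 y)]
    by_cases h2 : P.alive e (1, 0) T
    · have key : ∀ v, Reach (X' T) v → (v.1 + v.2 < P.N ∧ P.alive e (v + (1, 0)) T) ∨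
          ∃ z : ℤ × ℤ, z.1 + z.2 = P.N + 1 ∧ P.alive e z T := by
        have st : ∀ v c : ℤ × ℤ, c.1 + c.2 = v.1 + v.2 + 1 → v.1 + v.2 < P.N →
            P.bad (P.Past ((v + (1, 0)).1 + (v + (1, 0)).2) ∪ P.Ez (v + (1, 0))) (c + (1, 0)) T ≤ e →
            (c.1 + c.2 < P.N ∧ P.alive e (c + (1, 0)) T) ∨
              ∃ z : ℤ × ℤ, z.1 + z.2 = P.N + 1 ∧ P.alive e z T := by
          intro v c a1 a2 a3
          have a4 : P.alive e (c + (1, 0)) T := le_trans (P.bad_mono (fun x hx => by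
            rcases hx with hx | hx
            · simp only [Past, Set.mem_ofPred_eq, Prod.fst_add, Prod.snd_add] at hx ⊢
              omega
            · simp only [Past, Set.mem_ofPred_eq, show P.cellE x = _ from hx, Prod.fst_add,
                Prod.snd_add]
              omega) _ T) a3
          rcases lt_or_ge (c.1 + c.2) P.N with h | h
          · exact Or.inl ⟨h, a4⟩
          · exact Or.inr ⟨_, by simp; omega, a4⟩
        intro v hv
        induction hv with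
        | base => exact Or.inl ⟨by simpa using hN, h2⟩
        | @e0 v hv hx ih =>
          exact ih.elim (fun h => st v _ (by simp; ring) h.1
            (hx ⟨hv.nonneg.1, hv.nonneg.2, h.1⟩ h.2).1) Or.inr
        | @e1 v hv hx ih =>
          exact ih.elim (fun h => st v _ (by simp; ring) h.1 (by
            rw [add_right_comm v (0, 1)]
            exact (hx ⟨hv.nonneg.1, hv.nonneg.2, h.1⟩ h.2).2)) Or.inr
      push Not at h1
      obtain ⟨v, hv, hv'⟩ := h1
      obtain ⟨z, hz, hz'⟩ := (key v hv).resolve_left fun h => by omega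
      rw [ind_pos (P.far_of_alive (by linarith) hz hz')]
      linarith [ind_nonneg (¬P.alive e (1, 0) T), ind_nonneg (∀ v, Reach (X' T) v → v.1 + v.2 < P.N)]
    · rw [ind_pos h2]; linarith [ind_nonneg (∀ v, Reach (X' T) v → v.1 + v.2 < P.N),
        ind_nonneg (∃ y : Zd d, (P.N : ℤ) - 2 ≤ y P.i + y P.j ∧ conn (P.w0 ∪ ↑T) 0 y)]
  have hsub : bedges (0 : Zd d) P.m ⊆ P.S := fun x hx => mem_bedges.2 ⟨(mem_bedges.1 hx).1,
    ins_mono (box_mono _ (by
      have := P.hm; have := P.npos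
      exact le_trans (by omega) (le_mul_of_one_le_left (by omega) (by omega) :
        10 * (P.m + P.n) ≤ P.Hh (P.N + 1)))) (mem_bedges.1 hx).2⟩
  refine le_trans ?_ (Ex_mono P.h0 P.h1 (f := fun T => ind (bedges (0 : Zd d) P.m ⊆ T) *
    ind (∃ y : Zd d, (P.N : ℤ) - 2 ≤ y P.i + y P.j ∧ conn (P.w0 ∪ ↑T) 0 y)) fun T _ => ?_)
  · rw [Ex_indep P.w0, Ex_all hsub]
    · linarith [mul_le_mul_of_nonneg_left k4 (pow_nonneg P.h0 (bedges (0 : Zd d) P.m).card)]
    · intro T T'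
      exact ind_congr (forall₂_congr fun x hx => by simp [mem_mix, w0, hx])
    · intro T T'
      congr! 5
      ext x
      simp only [Set.mem_union, Finset.mem_coe, mem_mix]
      tauto
  · rw [← ind_and]
    exact ind_mono fun ⟨h, y, hy, hc⟩ => ⟨y, hy, hc.mono (Set.union_subset h subset_rfl)⟩

end Par

end Vale.Agent.P151Z
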