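import Mathlib
import Vale.Agent.P151Z.Geo

/-! From a positive percolation probability to the finite-size criterion. -/

namespace Vale.Agent.P151Z

open Filter Topology

variable {d : ℕ}

def bdry (d : ℕ) (n : ℤ) : Set (Zd d) := {y | y ∈ box 0 n ∧ ∃ k, n ≤ |y k|}

lemma exit_box {ω : Set (Sym2 (Zd d))} (hω : ω ⊆ (zd d).edgeSet) {n : ℤ} {y b : Zd d}
    (hy : y ∈ box 0 n) (hc : conn ω y b) (hb : ∃ k, n ≤ |b k|) :
    ∃ a ∈ bdry d n, conn (ω ∩ ↑(bedges (0 : Zd d) n)) a y := by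
  obtain ⟨a, ha, hc'⟩ := first_entry (U := {y : Zd d | ∃ k, n ≤ |y k|}) hc hb
  have key : ω \ ins {y : Zd d | ∃ k, n ≤ |y k|} ⊆ ω ∩ ↑(bedges (0 : Zd d) n) := fun e he => by
    refine ⟨he.1, mem_bedges.2 ⟨hω he.1, ?_⟩⟩
    induction e using Sym2.ind with
    | _ u v =>
      have hadj : (zd d).Adj u v := hω he.1
      have h2 := he.2
      rw [mk_mem_ins, not_and_or] at h2
      simp only [Set.mem_ofPred_eq, not_exists, not_le] at h2
      refine mk_mem_ins.2 ⟨fun k => ?_, fun k => ?_⟩ <;>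
      · have a1 := abs_le.1 (adj_lip hadj k)
        have a2 := h2.imp (fun h => abs_lt.1 (h k)) fun h => abs_lt.1 (h k)
        simp only [Pi.zero_apply]
        rw [abs_le]; omega
  refine ⟨a, ⟨?_, ha⟩, (hc'.mono key).symm⟩
  by_cases h : a = y
  · exact h ▸ hy
  · obtain ⟨x, hx⟩ := last_edge (hc'.mono key) h
    exact (mk_mem_ins.1 (mem_bedges.1 hx.2).2).2

noncomputable def bb (d : ℕ) (p : ℝ) (m n : ℤ) : ℝ := fail p m n (0 : Zd d) (bdry d n)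

def Eb (m n : ℤ) (T : Finset (Sym2 (Zd d))) : Prop :=
  Disjoint (box 0 m) (cl (res ↑(bedges (0 : Zd d) n) T) (bdry d n))

lemma bb_eq (p : ℝ) (m : ℤ) {n N : ℤ} (h : n ≤ N) :
    bb d p m n = Ex p (bedges (0 : Zd d) N) fun T => ind (Eb m n T) := by
  rw [bb, fail, show bedges (0 : Zd d) n = res ↑(bedges (0 : Zd d) n) (bedges 0 N) from by
    ext e
    simp only [mem_res, Finset.mem_coe, iff_and_self]
    exact fun he => mem_bedges.2 ⟨(mem_bedges.1 he).1, ins_mono (box_mono _ h)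
      (mem_bedges.1 he).2⟩, ← Ex_res]
  rfl

lemma Eb_mono {m n n' : ℤ} (hm : m ≤ n) (h : n ≤ n') {T : Finset (Sym2 (Zd d))}
    (hE : Eb m n T) : Eb m n' T := by
  refine Set.disjoint_left.2 fun y hy ⟨b, hb, hc⟩ => ?_
  obtain ⟨a, ha, hc'⟩ := exit_box (fun e he => (mem_bedges.1 (mem_res.1 he).2).1)
    (box_mono _ hm hy) hc.symm (hb.2.imp fun k hk => h.trans hk)
  exact Set.disjoint_left.1 hE hy ⟨a, ha, hc'.mono fun e he =>
    mem_res.2 ⟨(mem_res.1 he.1).1, he.2⟩⟩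

lemma bb_rec {p : ℝ} (h0 : 0 ≤ p) (h1 : p ≤ 1) {m n n' : ℤ} (hm : m ≤ n) (h : n ≤ n') :
    bb d p n n' ≤ bb d p m n * bb d p n n' + (bb d p m n' - bb d p m n) := by
  rw [bb_eq p m h, bb_eq p n le_rfl, bb_eq p m le_rfl, ← Ex_indep (ins (box 0 n)), ← Ex_sub,
    ← Ex_add]
  · refine Ex_mono h0 h1 fun T _ => ?_
    by_cases a1 : Eb m n T
    · rw [ind_pos a1, ind_pos (Eb_mono hm h a1)]; linarith
    · rw [ind_neg a1]
      have : ind (Eb n n' T) ≤ ind (Eb m n' T) :=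
        ind_mono fun h => Disjoint.mono_left (box_mono _ hm) h
      linarith
  · intro T T'
    unfold Eb
    congr! 4
    ext e
    simp only [mem_res, mem_mix, Finset.mem_coe, mem_bedges]
    tauto
  · intro T T'
    exact ind_congr (disj_cl_congr fun e he => by
      simp only [mem_res, mem_mix, Finset.mem_coe]; tauto)

lemma zero_one {p θ η : ℝ} (h0 : 0 ≤ p) (h1 : p ≤ 1) (hθ : 0 < θ) (hη : 0 < η) {m0 : ℕ}
    (h : ∀ n : ℤ, m0 ≤ n → bb d p m0 n ≤ 1 - θ) : ∃ m : ℕ, ∀ n : ℤ, m ≤ n → bb d p m n ≤ η := by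
  have hb : BddAbove (Set.range fun n : ℕ => bb d p m0 ((m0 + n : ℕ) : ℤ)) :=
    ⟨1 - θ, by rintro _ ⟨n, rfl⟩; exact h _ (by omega)⟩
  obtain ⟨n1, hn1⟩ := exists_lt_of_lt_ciSup (f := fun n : ℕ => bb d p m0 ((m0 + n : ℕ) : ℤ))
    (sub_lt_self _ (mul_pos hθ hη))
  refine ⟨m0 + n1, fun n hn => ?_⟩
  have a1 := bb_rec (d := d) h0 h1 (m := m0) (n := (m0 + n1 : ℕ)) (by omega) hn
  have a2 := le_ciSup hb (n - m0).toNat
  rw [show ((m0 + (n - m0).toNat : ℕ) : ℤ) = n by omega] at a2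
  have a3 : 0 ≤ bb d p (m0 + n1 : ℕ) n := Ex_nonneg h0 h1 fun _ _ => ind_nonneg _
  have a4 := mul_le_mul_of_nonneg_right (h (m0 + n1 : ℕ) (by omega)) a3
  refine le_of_mul_le_mul_left ?_ hθ
  linarith

lemma harris_prod {E ι : Type*} [DecidableEq E] [DecidableEq ι] {p : ℝ} (h0 : 0 ≤ p) (h1 : p ≤ 1)
    (S : Finset E) (A : ι → Finset E → Prop) (hA : ∀ i T T', T ⊆ T' → A i T' → A i T)
    (I : Finset ι) :
    ∏ i ∈ I, (Ex p S fun T => ind (A i T)) ≤ Ex p S fun T => ind (∀ i ∈ I, A i T) := by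
  induction I using Finset.induction_on with
  | empty => simp [ind, Ex_const]
  | insert i I hi ih =>
    simp only [Finset.prod_insert hi, Finset.forall_mem_insert, ind_and]
    exact (mul_le_mul_of_nonneg_left ih (Ex_nonneg h0 h1 fun _ _ => ind_nonneg _)).trans
      (harris h0 h1 (fun T T' h => ind_mono (hA i T T' h))
        fun T T' h => ind_mono fun h' j hj => hA j T T' h (h' j hj))

def idx (d : ℕ) : Finset ((Fin d × Fin d) × ℤ × ℤ) :=
  (Finset.univ.filter fun x : Fin d × Fin d => x.1 ≠ x.2) ×ˢ (({1, -1} : Finset ℤ) ×ˢ {1, -1})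

lemma sqrt_trick {p : ℝ} (h0 : 0 ≤ p) (h1 : p ≤ 1) {i j : Fin d} (hij : i ≠ j) (m n : ℤ) :
    fail p m n 0 (piece 0 n i j 1 1) ^ (idx d).card ≤ bb d p m n := by
  rw [← Finset.prod_const, ← Finset.prod_congr rfl fun x hx => fail_piece p m n hij (i := x.1.1)
    (j := x.1.2) (s := x.2.1) (t := x.2.2) (by
      simp only [idx, Finset.mem_product, Finset.mem_filter] at hx
      exact hx.1.2) 0 (by
      simp only [idx, Finset.mem_product, Finset.mem_insert, Finset.mem_singleton] at hx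
      rcases hx.2.1 with h | h <;> simp [h]) (by
      simp only [idx, Finset.mem_product, Finset.mem_insert, Finset.mem_singleton] at hx
      rcases hx.2.2 with h | h <;> simp [h])]
  refine (harris_prod h0 h1 _ _ (fun x T T' h h' => h'.mono_right (cl_mono h subset_rfl)) _).trans
    (Ex_mono h0 h1 fun T _ => ind_mono fun h => Set.disjoint_left.2 fun y hy ⟨b, hb, hc⟩ => ?_)
  obtain ⟨k, hk⟩ := hb.2
  obtain ⟨l, hl⟩ : ∃ l, k ≠ l := by
    by_cases h : k = i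
    · exact ⟨j, h ▸ hij⟩
    · exact ⟨i, h⟩
  have a1 := abs_le.1 (hb.1 k)
  simp only [Pi.zero_apply] at a1
  refine Set.disjoint_left.1 (h ((k, l), if 0 ≤ b k then 1 else -1, if 0 ≤ b l then 1 else -1) ?_)
    hy ⟨b, ⟨hb.1, ?_, ?_⟩, hc⟩
  · simp only [idx, Finset.mem_product, Finset.mem_filter, Finset.mem_univ, Finset.mem_insert,
      Finset.mem_singleton]
    refine ⟨⟨trivial, hl⟩, ?_, ?_⟩ <;> split_ifs <;> simp
  · simp only [Pi.zero_apply]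
    split_ifs with h
    · rw [abs_of_nonneg h] at hk; omega
    · rw [abs_of_neg (not_le.1 h)] at hk; omega
  · simp only [Pi.zero_apply]
    split_ifs with h <;> omega

theorem exists_par {p0 θ ε : ℝ} (h0 : 0 < p0) (h1 : p0 < 1) (hθ : 0 < θ) (hε : 0 < ε) (hε1 : ε ≤ 1)
    {i j : Fin d} (hij : i ≠ j) {m0 : ℕ} (h : ∀ n : ℤ, m0 ≤ n → bb d p0 m0 n ≤ 1 - θ) :
    ∃ p : ℝ, 0 < p ∧ p < p0 ∧ ∃ m n l : ℤ, 0 ≤ m ∧ m < l ∧ 11 * l ≤ n ∧ LinkOK d p m n l ε ∧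
      Crit d p m n ε := by
  obtain ⟨C, hC⟩ : ∃ C : ℝ, C = 4 / ε := ⟨_, rfl⟩
  have hC0 : 0 < C := by rw [hC]; positivity
  obtain ⟨γ, hγ⟩ : ∃ γ : ℝ, γ = ε / (4 * (C + 2)) := ⟨_, rfl⟩
  have hγ0 : 0 < γ := by rw [hγ]; positivity
  have hγ1 : (C + 2) * γ = ε / 4 := by rw [hγ]; field_simp
  have hγ2 : γ ^ 2 ≤ ε := by nlinarith [mul_pos hC0 hγ0]
  obtain ⟨m, hm⟩ := zero_one (d := d) h0.le h1.le hθ
    (half_pos (pow_pos (pow_pos hγ0 2) (idx d).card)) h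
  obtain ⟨s, hs⟩ : ∃ s, s = (bedges (0 : Zd d) m).card := ⟨_, rfl⟩
  have ha0 : 0 < p0 ^ s := pow_pos h0 s
  have ha1 : p0 ^ s ≤ 1 := pow_le_one₀ h0.le h1.le
  obtain ⟨k, hk⟩ : ∃ k : ℕ, k = ⌈C / p0 ^ s⌉₊ := ⟨_, rfl⟩
  have hk1 : C ≤ k * p0 ^ s := by rw [← div_le_iff₀ ha0, hk]; exact Nat.le_ceil _
  have hk2 : k * p0 ^ s ≤ C + 1 := by
    have := mul_le_mul_of_nonneg_right (Nat.ceil_lt_add_one (div_pos hC0 ha0).le).le ha0.le
    rw [add_mul, div_mul_cancel₀ _ ha0.ne', ← hk] at this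
    linarith
  obtain ⟨X, hX⟩ : ∃ X, X = (bedges (0 : Zd d) 1).card * (chi d m * k) := ⟨_, rfl⟩
  have hq : 0 < (1 - p0) ^ X := pow_pos (sub_pos.2 h1) X
  obtain ⟨L, hL⟩ := exists_nat_gt (C / (1 - p0) ^ X)
  have hL0 : (0 : ℝ) < L := (div_pos hC0 hq).trans hL
  have hL1 : 0 < L := Nat.cast_pos.1 hL0
  have e1 : ∀ᶠ p in 𝓝 p0, 1 / ((1 - p) ^ X * L) + ((1 - p ^ s) ^ k + k * (p ^ s * γ) + γ) < ε := by
    refine ContinuousAt.eventually_lt (f := fun p : ℝ => 1 / ((1 - p) ^ X * L) +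
      ((1 - p ^ s) ^ k + k * (p ^ s * γ) + γ)) (by
      have := (mul_pos hq hL0).ne'
      fun_prop (disch := exact this)) continuousAt_const ?_
    have b1 : 1 / ((1 - p0) ^ X * L) ≤ ε / 4 := by
      rw [div_lt_iff₀ hq, hC, div_lt_iff₀ hε] at hL
      rw [div_le_iff₀ (mul_pos hq hL0)]
      linarith
    have b2 : (1 - p0 ^ s) ^ k ≤ ε / 4 := by
      have c1 := one_add_mul_le_pow (show -2 ≤ p0 ^ s by linarith) k
      have c2 : (1 - p0 ^ s) ^ k * (1 + p0 ^ s) ^ k ≤ 1 := by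
        rw [← mul_pow]; exact pow_le_one₀ (by nlinarith) (by nlinarith)
      have c3 : 0 ≤ (1 - p0 ^ s) ^ k := pow_nonneg (by linarith) k
      have c4 : (1 - p0 ^ s) ^ k * C ≤ 1 :=
        (mul_le_mul_of_nonneg_left (by linarith) c3).trans c2
      rw [hC, mul_div_assoc', div_le_one hε] at c4
      linarith
    have b3 := mul_le_mul_of_nonneg_right hk2 hγ0.le
    nlinarith
  have e2 : ∀ᶠ p in 𝓝 p0, fail p m (11 * (2 * m + L)) 0 (piece 0 (11 * (2 * m + L)) i j 1 1) <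
      γ ^ 2 := by
    refine ContinuousAt.eventually_lt (Ex_continuous _ _).continuousAt continuousAt_const ?_
    refine lt_of_pow_lt_pow_left₀ (idx d).card (by positivity) ?_
    exact (sqrt_trick h0.le h1.le hij _ _).trans_lt ((hm _ (by omega)).trans_lt
      (half_lt_self (by positivity)))
  obtain ⟨p, ⟨⟨a1, a2⟩, a3⟩, a4⟩ := ((((e1.and e2).and (lt_mem_nhds h0)).filter_mono
    (nhdsWithin_le_nhds (s := Set.Iio p0))).and self_mem_nhdsWithin).exists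
  have a5 : Crit d p m (11 * (2 * m + L)) (γ ^ 2) := fun x i' j' s t b1 b2 b3 => by
    rw [fail_piece p _ _ hij b1 x b2 b3]; exact a2.le
  refine ⟨p, a3, a4, m, 11 * (2 * m + L), 2 * m + L, by omega, by omega, le_rfl, ?_,
    fun x i' j' s t b1 b2 b3 => (a5 x i' j' s t b1 b2 b3).trans hγ2⟩
  intro ω0 S o i j c0 c1 w0 w1 H M b1 b2 b3 b4 b5 b6 b7 b8 b9
  refine (linkOK a3.le (lt_trans a4 h1) hγ0 k hL1 (by omega) a5 ω0 S o i j c0 c1 w0 w1 H M b1 b2 b3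
    b4 b5 b6 b7 b8 b9).trans ?_
  rw [← hs, ← hX]
  exact a1.le

end Vale.Agent.P151Z
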