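import Mathlib
import Vale.Agent.P151Z.Crit
import Vale.Agent.P151Z.Block

/-! Link with the product measure, and the main theorem. -/

namespace Vale.Agent.P151Z

open MeasureTheory ProbabilityTheory unitInterval

section gen

variable {E : Type} [DecidableEq E]

omit [DecidableEq E] in
lemma cyl_meas (S T : Finset E) : MeasurableSet {ω : Set E | res ω S = T} := by
  have : {ω : Set E | res ω S = T} = {_ω | T ⊆ S} ∩ ⋂ e ∈ S, {ω | e ∈ ω ↔ e ∈ T} := by
    ext ω
    simp only [Set.mem_ofPred_eq, Set.mem_inter_iff, Set.mem_iInter, Finset.ext_iff, mem_res]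
    exact ⟨fun h => ⟨fun e he => ((h e).2 he).1, fun e he => by simp [← h e, he]⟩,
      fun h e => ⟨fun h' => (h.2 e h'.1).1 h'.2, fun h' => ⟨h.1 h', (h.2 e (h.1 h')).2 h'⟩⟩⟩
  rw [this]
  refine (MeasurableSet.const _).inter (S.measurableSet_biInter fun e _ => ?_)
  by_cases h : e ∈ T
  · simpa [h] using measurableSet_mem e
  · simpa [h] using measurableSet_notMem e

lemma cyl_prob {u : Set E} (p : I) {S T : Finset E} (hS : ↑S ⊆ u) (hT : T ⊆ S) :
    (setBernoulli u p).real {ω | res ω S = T} = wt p S T := by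
  rw [measureReal_def, setBernoulli_apply', show (fun p : E → Prop => {i | p i}) ⁻¹'
    {ω | res ω S = T} = Set.pi S fun e => {q : Prop | q ↔ e ∈ T} from by
    ext ω
    simp only [Set.mem_preimage, Set.mem_ofPred_eq, Set.mem_pi, Finset.ext_iff, mem_res,
      Finset.mem_coe]
    exact ⟨fun h e he => by simp [← h e, he],
      fun h e => ⟨fun h' => (h e h'.1).1 h'.2, fun h' => ⟨hT h', (h e (hT h')).2 h'⟩⟩⟩,
    Measure.infinitePi_pi _ fun _ _ => .of_discrete, ENNReal.toReal_prod, wt]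
  refine Finset.prod_congr rfl fun e he => ?_
  have : e ∈ u := hS he
  by_cases h : e ∈ T <;> simp [h, this, Set.indicator]

lemma prob_Ex {u : Set E} (p : I) {S : Finset E} (hS : ↑S ⊆ u) (A : Finset E → Prop) :
    (setBernoulli u p).real {ω | A (res ω S)} = Ex p S fun T => ind (A T) := by
  classical
  rw [show {ω | A (res ω S)} = ⋃ T ∈ S.powerset.filter A, {ω | res ω S = T} from by
    ext ω
    simp only [Set.mem_ofPred_eq, Set.mem_iUnion, Finset.mem_filter, Finset.mem_powerset]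
    exact ⟨fun h => ⟨_, ⟨fun e he => (mem_res.1 he).1, h⟩, rfl⟩, fun ⟨T, h, h'⟩ => h' ▸ h.2⟩,
    measureReal_biUnion_finset (f := fun T => {ω | res ω S = T}) (fun T _ T' _ h => Set.disjoint_left.2 fun ω h1 h2 =>
      h ((show res ω S = T from h1).symm.trans h2)) fun T _ => cyl_meas S T,
    Finset.sum_filter, Ex]
  refine Finset.sum_congr rfl fun T hT => ?_
  rw [cyl_prob p hS (Finset.mem_powerset.1 hT), ind]
  split_ifs <;> simp

lemma conn_iff {V : Type} {ω : Set (Sym2 V)} {x y : V} :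
    conn ω x y ↔ (SimpleGraph.fromEdgeSet ω).Reachable x y := by
  constructor
  · intro h
    induction h with
    | refl => rfl
    | @tail b c _ h ih =>
      by_cases hbc : b = c
      · exact hbc ▸ ih
      · exact ih.trans (SimpleGraph.Adj.reachable ((SimpleGraph.fromEdgeSet_adj _).2 ⟨h, hbc⟩))
  · intro h
    rw [SimpleGraph.reachable_iff_reflTransGen] at h
    induction h with
    | refl => exact .refl
    | tail _ h ih => exact ih.trans (.edge ((SimpleGraph.fromEdgeSet_adj _).1 h).1)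

lemma conn_meas {V : Type} [Countable V] (x y : V) :
    MeasurableSet {ω : Set (Sym2 V) | conn ω x y} := by
  classical
  have : {ω : Set (Sym2 V) | conn ω x y} =
      ⋃ T : Finset (Sym2 V), {_ω | conn ↑T x y} ∩ ⋂ e ∈ T, {ω | e ∈ ω} := by
    ext ω
    simp only [Set.mem_ofPred_eq, Set.mem_inter_iff, Set.mem_iInter, Set.mem_iUnion]
    refine ⟨fun h => ?_, fun ⟨T, h, h'⟩ => h.mono h'⟩
    induction h with
    | refl => exact ⟨∅, .refl, by simp⟩
    | @tail b c _ h ih =>
      obtain ⟨T, h1, h2⟩ := ih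
      exact ⟨insert s(b, c) T, (h1.mono (by simp)).trans (.edge (by simp)), by simpa [h] using h2⟩
  rw [this]
  exact .iUnion fun T => (MeasurableSet.const _).inter
    (T.measurableSet_biInter fun e _ => measurableSet_mem e)

end gen

variable {d : ℕ}

lemma bb_of_pos {p : I} (h : percProb (zd d) p ≠ 0) :
    ∃ θ : ℝ, 0 < θ ∧ ∃ m0 : ℕ, ∀ n : ℤ, m0 ≤ n → bb d p m0 n ≤ 1 - θ := by
  obtain ⟨x, hx⟩ : ∃ x : Zd d, setBernoulli (zd d).edgeSet p
      {ω | {y | (SimpleGraph.fromEdgeSet ω).Reachable x y}.Infinite} ≠ 0 := by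
    by_contra hc
    push Not at hc
    exact h (measure_mono_null (fun ω hω => Set.mem_iUnion.2 hω) (measure_iUnion_null hc))
  refine ⟨_, ENNReal.toReal_pos hx (measure_ne_top _ _), (∑ k, |x k|).toNat, fun n hn => ?_⟩
  rw [le_sub_comm, bb, fail, ← Ex_not, ← prob_Ex p fun e he => (mem_bedges.1 he).1,
    setBernoulli_apply_eq_apply_subsets]
  refine measureReal_mono (fun ω hω => ?_) (measure_ne_top _ _)
  obtain ⟨y, hy, hy'⟩ := hω.1.exists_notMem_finite (box_finite 0 n)
  have hx : x ∈ box 0 (∑ k, |x k|).toNat := fun k => by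
    have := Finset.single_le_sum (f := fun k => |x k|) (fun _ _ => abs_nonneg _) (Finset.mem_univ k)
    simp only [Pi.zero_apply, sub_zero]
    omega
  obtain ⟨a, ha, hc⟩ := exit_box hω.2 (box_mono _ hn hx) (conn_iff.2 hy) (by
    simp only [box, Set.mem_ofPred_eq, not_forall, not_le, Pi.zero_apply, sub_zero] at hy'
    exact hy'.imp fun k hk => hk.le)
  exact fun hd => Set.disjoint_left.1 hd hx ⟨a, ha, hc.mono fun e he => mem_res.2 ⟨he.2, he.1⟩⟩

lemma pos_of_far {p : I} {i j : Fin d} {c : ℝ} (hc : 0 < c)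
    (h : ∀ N : ℕ, ∃ S : Finset (Sym2 (Zd d)), ↑S ⊆ (zd d).edgeSet ∧
      c ≤ Ex p S fun T => ind (∃ y : Zd d, (N : ℤ) ≤ y i + y j ∧ conn ↑T 0 y)) :
    0 < percProb (zd d) p := by
  let A : ℕ → Set (Set (Sym2 (Zd d))) := fun N => ⋃ y : Zd d, {_ω | (N : ℤ) ≤ y i + y j} ∩
    {ω | conn ω 0 y}
  have h1 : ∀ N, ENNReal.ofReal c ≤ setBernoulli (zd d).edgeSet p (A N) := fun N => by
    obtain ⟨S, hS, h⟩ := h N
    rw [← prob_Ex p hS] at h
    refine ENNReal.ofReal_le_of_le_toReal (h.trans (measureReal_mono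
      (fun ω ⟨y, hy, hc⟩ => ?_) (measure_ne_top _ _)))
    exact Set.mem_iUnion.2 ⟨y, hy, hc.mono fun e he => (mem_res.1 he).2⟩
  have h2 : Antitone A := fun a b hab ω hω => by
    obtain ⟨y, hy, hc⟩ := Set.mem_iUnion.1 hω
    exact Set.mem_iUnion.2 ⟨y, le_trans (Int.ofNat_le.2 hab) hy, hc⟩
  have h3 := h2.measure_iInter (μ := setBernoulli (zd d).edgeSet p) (fun N =>
    (MeasurableSet.iUnion fun y => (MeasurableSet.const _).inter (conn_meas 0 y)).nullMeasurableSet)
    ⟨0, measure_ne_top _ _⟩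
  refine (ENNReal.ofReal_pos.2 hc).trans_le (((le_iInf h1).trans h3.ge).trans
    (measure_mono fun ω hω => ⟨0, fun hf => ?_⟩))
  obtain ⟨b, hb⟩ := (hf.image fun y => y i + y j).bddAbove
  obtain ⟨y, hy, hc⟩ := Set.mem_iUnion.1 (Set.mem_iInter.1 hω (b + 1).toNat)
  have a1 : y i + y j ≤ b := hb ⟨y, conn_iff.1 hc, rfl⟩
  have a2 : (((b + 1).toNat : ℕ) : ℤ) ≤ y i + y j := hy
  omega

theorem crit_zero {i j : Fin d} (hij : i ≠ j) (h1 : pc (zd d) < 1) :
    percProb (zd d) (pc (zd d)) = 0 := by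
  by_contra h
  rcases eq_or_lt_of_le (show 0 ≤ pc (zd d) from bot_le) with h0 | h0
  · refine h ?_
    rw [← h0, percProb, setBernoulli_zero]
    refine measure_mono_null (t := ⋃ e, {ω | e ∈ ω}) (fun ω ⟨x, hx⟩ => ?_)
      (measure_iUnion_null fun e => by simp [Measure.dirac_apply' _ (measurableSet_mem e)])
    by_contra he
    rw [show ω = ∅ by simpa [Set.eq_empty_iff_forall_notMem] using he] at hx
    exact hx (by simp [SimpleGraph.reachable_bot])
  obtain ⟨θ, hθ, m0, hm0⟩ := bb_of_pos h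
  obtain ⟨p, a0, a1, m, n, l, b1, b2, b3, hL, hC⟩ := exists_par (p0 := pc (zd d)) h0 h1 hθ
    (ε := ((1 / 15) ^ 4 / 2) ^ 2 / 20) (by norm_num) (by norm_num) hij hm0
  have a2 : p ≤ 1 := a1.le.trans (pc (zd d)).2.2
  have := pos_of_far (p := ⟨p, a0.le, a2⟩) (i := i) (j := j)
    (half_pos (pow_pos a0 (bedges (0 : Zd d) m).card)) fun N => by
    let P : Par d := ⟨i, j, m, n, l, N + 2, p, hij, b1, b2, b3, a0.le, a2⟩
    refine ⟨P.S, P.S_sub, (P.far (Nat.succ_pos _) hL hC).trans (le_of_eq ?_)⟩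
    simp [P]
  exact absurd (show (pc (zd d) : ℝ) ≤ p from sInf_le (s := {p | 0 < percProb (zd d) p}) this)
    (not_le.2 a1)

end Vale.Agent.P151Z
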