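import Mathlib
import Vale.Agent.P151Z.Meas

/-! The critical probability of the lattice is less than one. -/

namespace Vale.Agent.P151Z

variable {d : ℕ} {i j : Fin d}

def pt (i j : Fin d) (v : ℤ × ℤ) : Zd d := fun k => if k = i then v.1 else if k = j then v.2 else 0

lemma pt_i (v : ℤ × ℤ) : pt i j v i = v.1 := by simp [pt]

lemma pt_j (h : i ≠ j) (v : ℤ × ℤ) : pt i j v j = v.2 := by simp [pt, h.symm]

lemma pt_inj (h : i ≠ j) {v w : ℤ × ℤ} (e : pt i j v = pt i j w) : v = w :=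
  Prod.ext (by simpa [pt_i] using congrFun e i) (by simpa [pt_j h] using congrFun e j)

lemma pt_edge (h : i ≠ j) {v c : ℤ × ℤ} (hc : c = v + (1, 0) ∨ c = v + (0, 1)) {N : ℤ}
    (hv : 0 ≤ v.1 ∧ 0 ≤ v.2 ∧ v.1 + v.2 < N) : s(pt i j v, pt i j c) ∈ bedges (0 : Zd d) N := by
  refine mem_bedges.2 ⟨?_, mk_mem_ins.2 ⟨fun k => ?_, fun k => ?_⟩⟩
  · show ∑ k, |_| = 1
    rcases hc with rfl | rfl
    · rw [Finset.sum_eq_single i (fun k _ hk => by simp [pt, hk]) (by simp)]; simp [pt]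
    · rw [Finset.sum_eq_single j (fun k _ hk => by by_cases k = i <;> simp [pt, *]) (by simp)]
      simp [pt, h.symm]
  · simp only [pt, Pi.zero_apply]; rw [abs_le]; split_ifs <;> omega
  · rcases hc with rfl | rfl <;> simp only [pt, Pi.zero_apply, Prod.fst_add, Prod.snd_add] <;>
      rw [abs_le] <;> split_ifs <;> omega

theorem far_one (h : i ≠ j) {p : ℝ} (h0 : 0 ≤ p) (h1 : p ≤ 1) (hp : 2 * (1 - p) ≤ (1 / 15) ^ 4)
    (N : ℕ) : 2 / 3 ≤ Ex p (bedges (0 : Zd d) N) fun T =>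
      ind (∃ y : Zd d, (N : ℤ) ≤ y i + y j ∧ conn ↑T 0 y) := by
  let X : Finset (Sym2 (Zd d)) → ℤ × ℤ → Prop := fun T v =>
    0 ≤ v.1 ∧ 0 ≤ v.2 ∧ v.1 + v.2 < N →
      s(pt i j v, pt i j (v + (1, 0))) ∈ T ∧ s(pt i j v, pt i j (v + (0, 1))) ∈ T
  have k1 := peierls h0 h1 (S := bedges (0 : Zd d) N) X N (prod_bound h0 h1 (by norm_num)
    (fun v => {s(pt i j v, pt i j (v + (1, 0))), s(pt i j v, pt i j (v + (0, 1)))})
    (fun v => v.1 + v.2) (fun v T => ¬X T v) (fun w z hwz hl T T' => by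
      have a1 : ∀ a b : ℤ × ℤ, a.1 + a.2 = w.1 + w.2 + 1 →
          s(pt i j w, pt i j a) ≠ s(pt i j z, pt i j b) ∨ b.1 + b.2 ≠ z.1 + z.2 + 1 := by
        intro a b ha
        by_contra hc
        push Not at hc
        rcases Sym2.eq_iff.1 hc.1 with h2 | h2
        · exact hwz (pt_inj h h2.1)
        · have := pt_inj h h2.1
          subst this
          omega
      have a2 : ∀ a : ℤ × ℤ, a.1 + a.2 = w.1 + w.2 + 1 → (s(pt i j w, pt i j a) ∈ mix
          ({s(pt i j z, pt i j (z + (1, 0))), s(pt i j z, pt i j (z + (0, 1)))} : Set _)ᶜ T T' ↔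
          s(pt i j w, pt i j a) ∈ T) := fun a ha => by
        have b1 := (a1 a (z + (1, 0)) ha).resolve_right (by simp; ring)
        have b2 := (a1 a (z + (0, 1)) ha).resolve_right (by simp; ring)
        simp only [mem_mix, Set.mem_compl_iff, Set.mem_insert_iff, Set.mem_singleton_iff, b1, b2]
        tauto
      simp only [X, a2 (w + (1, 0)) (by simp; ring), a2 (w + (0, 1)) (by simp; ring)])
    fun v T hT => by
      by_cases hv : 0 ≤ v.1 ∧ 0 ≤ v.2 ∧ v.1 + v.2 < N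
      · have b1 := Ex_none (p := p) (Finset.singleton_subset_iff.2 (pt_edge h (Or.inl rfl) hv))
        have b2 := Ex_none (p := p) (Finset.singleton_subset_iff.2 (pt_edge h (Or.inr rfl) hv))
        rw [Finset.card_singleton, pow_one] at b1 b2
        refine le_trans ?_ hp
        rw [two_mul]
        nth_rewrite 1 [← b1]
        rw [← b2, ← Ex_add]
        refine Ex_mono h0 h1 fun T' _ => le_trans (ind_mono fun h' => ?_) (ind_or_le _ _)
        simp only [X, hv, mem_mix, Set.mem_compl_iff, Set.mem_insert_iff, Set.mem_singleton_iff,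
          Finset.disjoint_singleton_right] at h' ⊢
        tauto
      · simp only [X, hv, false_imp_iff, not_true, ind_neg not_false, Ex_const]
        norm_num)
  refine le_trans (b := Ex p (bedges (0 : Zd d) N) fun T =>
    ind (¬∀ v, Reach (X T) v → v.1 + v.2 < N)) (by rw [Ex_not]; linarith)
    (Ex_mono h0 h1 fun T _ => ind_mono fun h1 => ?_)
  have key : ∀ v, Reach (X T) v → conn ↑T 0 (pt i j v) ∨
      ∃ y : Zd d, (N : ℤ) ≤ y i + y j ∧ conn ↑T 0 y := by
    intro v hv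
    have st : ∀ v, conn ↑T 0 (pt i j v) → v.1 + v.2 < N ∨
        ∃ y : Zd d, (N : ℤ) ≤ y i + y j ∧ conn ↑T 0 y := fun v hc =>
      (lt_or_ge _ _).imp_right fun h2 => ⟨_, by rwa [pt_i, pt_j h], hc⟩
    induction hv with
    | base => exact Or.inl (by rw [show pt i j (0, 0) = 0 from by ext k; simp [pt]]; exact .refl)
    | e0 hv hx ih =>
      exact ih.elim (fun h2 => (st _ h2).imp_left fun h3 =>
        h2.trans (.edge (hx ⟨hv.nonneg.1, hv.nonneg.2, h3⟩).1)) Or.inr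
    | e1 hv hx ih =>
      exact ih.elim (fun h2 => (st _ h2).imp_left fun h3 =>
        h2.trans (.edge (hx ⟨hv.nonneg.1, hv.nonneg.2, h3⟩).2)) Or.inr
  push Not at h1
  obtain ⟨v, hv, hv'⟩ := h1
  exact (key v hv).elim (fun hc => ⟨_, by rwa [pt_i, pt_j h], hc⟩) id

theorem pc_lt_one (h : i ≠ j) : pc (zd d) < 1 := by
  have a0 : (0 : ℝ) ≤ 1 - (1 / 15) ^ 4 / 2 := by norm_num
  have a1 : (1 : ℝ) - (1 / 15) ^ 4 / 2 ≤ 1 := by norm_num
  have := pos_of_far (p := ⟨_, a0, a1⟩) (i := i) (j := j) (c := 2 / 3) (by norm_num) fun N =>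
    ⟨_, fun e he => (mem_bedges.1 he).1, far_one h a0 a1 (by norm_num) N⟩
  exact (sInf_le (s := {p | 0 < percProb (zd d) p}) this).trans_lt
    (show (1 : ℝ) - (1 / 15) ^ 4 / 2 < 1 by norm_num)

end Vale.Agent.P151Z
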